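import Mathlib.Analysis.InnerProductSpace.PiL2
import Mathlib.Analysis.SpecialFunctions.Complex.Circle
import Mathlib.Topology.Covering.Basic
import Mathlib.GroupTheory.Index
import Mathlib.GroupTheory.Finiteness
import Mathlib.Data.ZMod.Basic
import Mathlib.Geometry.Manifold.ChartedSpace

/-!
# P216T: the class `C` of closed three-manifolds with fundamental group `G`

`Pk G` is the package of properties of the group, `InC G N` says that `N` is the quotient of a
simply connected space (in the sense of lifting, `SC`) by a free action of `G`.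
The block statements (`SphGoal`, `TorGoal`, `TopGoal`, ...) are purely topological.
-/

set_option linter.all false

open Set Topology Filter

noncomputable section

namespace Vale.Agent.P216T

/-- Euclidean three space (the same type as `P216R.E3`) -/
abbrev E3 : Type := EuclideanSpace ℝ (Fin 3)

/-- `X` is connected and all maps from `X` lift through all coverings. -/
structure SC (X : Type) [TopologicalSpace X] : Prop where
  conn : ConnectedSpace X
  lift : ∀ (E B : Type) [TopologicalSpace E] [TopologicalSpace B] (p : E → B), IsCoveringMap p →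
    ∀ f : X → B, Continuous f → ∀ (x₀ : X) (e₀ : E), p e₀ = f x₀ →
      ∃ F : X → E, Continuous F ∧ F x₀ = e₀ ∧ ∀ x, p (F x) = f x

/-- `P : X → N` is the quotient by a free action of `G` and a local homeomorphism. -/
structure Quo (G : Type) [Group G] {X N : Type} [TopologicalSpace X] [TopologicalSpace N]
    [MulAction G X] (P : X → N) : Prop where
  loc : IsLocalHomeomorph P
  surj : Function.Surjective P
  cont : ∀ g : G, Continuous fun x : X => g • x
  inv : ∀ (g : G) (x : X), P (g • x) = P x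
  orb : ∀ x y : X, P x = P y → ∃ g : G, g • x = y
  free : ∀ (g : G) (x : X), g • x = x → g = 1

/-- The class `C`: the fundamental group of `N` is `G`. -/
def InC (G : Type) [Group G] (N : Type) [TopologicalSpace N] : Prop :=
  ∃ (X : Type) (_ : TopologicalSpace X) (_ : MulAction G X) (P : X → N), SC X ∧ Quo G P

/-- finitely many conjugacy classes of cyclic subgroups cover `G` -/
def CC (G : Type) [Group G] : Prop :=
  ∃ F : Set G, F.Finite ∧ ∀ g : G, ∃ a ∈ F, ∃ k : ℤ, IsConj g (a ^ k)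

/-- not virtually cyclic (in particular infinite) -/
def NVC (G : Type) [Group G] : Prop := ∀ a : G, ¬ (Subgroup.zpowers a).FiniteIndex

/-- one end -/
def OneEnd (G : Type) [Group G] : Prop :=
  ∀ A : Set G, (∀ s : G, {g | ¬ (g ∈ A ↔ g * s ∈ A)}.Finite) → A.Finite ∨ Aᶜ.Finite

/-- The package of properties of the group. -/
structure Pk (G : Type) [Group G] : Prop where
  cc : CC G
  nvc : NVC G
  tf : ∀ (x : G) (n : ℕ), n ≠ 0 → x ^ n = 1 → x = 1
  cen : ∀ x : G, x ≠ 1 → ∃ z : G, ∀ y, Commute x y → y ∈ Subgroup.zpowers z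

/-- `f` restricted to the open set `V` is an open embedding. -/
structure OE {Y N : Type} [TopologicalSpace Y] [TopologicalSpace N] (f : Y → N) (V : Set Y) :
    Prop where
  opn : IsOpen V
  cont : ContinuousOn f V
  inj : InjOn f V
  img : ∀ W ⊆ V, IsOpen W → IsOpen (f '' W)

/-! ## Spheres -/

/-- the annulus -/
def ann (a b : ℝ) : Set E3 := {x | a < ‖x‖ ∧ ‖x‖ < b}

/-- The sphere `φ {‖x‖ = c}` separates `N` into `U` (outer side) and `V` (inner side). -/
structure SepS {N : Type} [TopologicalSpace N] (φ : E3 → N) (a c b : ℝ) (U V : Set N) : Prop where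
  oU : IsOpen U
  oV : IsOpen V
  disj : Disjoint U V
  cov : ∀ y, y ∈ U ∨ y ∈ V ∨ ∃ x, ‖x‖ = c ∧ φ x = y
  sU : ∀ x, ‖x‖ = c → φ x ∉ U
  sV : ∀ x, ‖x‖ = c → φ x ∉ V
  mU : MapsTo φ (ann c b) U
  mV : MapsTo φ (ann a c) V

/-- Gluing the ball `‖x‖ < b` to `U` along `φ` on `c < ‖x‖ < b` gives a space of the class. -/
def KeepS (G : Type) [Group G] {N : Type} [TopologicalSpace N] (φ : E3 → N) (c b : ℝ)
    (U : Set N) : Prop :=
  ∀ (N' : Type) [TopologicalSpace N'] [T2Space N'] (j : N → N') (β : E3 → N'), OE j U →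
    OE β (Metric.ball 0 b) → (∀ x ∈ ann c b, β x = j (φ x)) →
    (∀ x, ‖x‖ ≤ c → ∀ u ∈ U, β x ≠ j u) →
    (∀ y, y ∈ j '' U ∨ y ∈ β '' Metric.ball 0 b) → InC G N'

/-- the inversion -/
def inv3 (x : E3) : E3 := (‖x‖ ^ 2)⁻¹ • x

/-- **SPH**: every neck sphere separates and one of the two capped sides is in the class. -/
def SphGoal : Prop :=
  ∀ (G : Type) [Group G], Pk G → ∀ (N : Type) [TopologicalSpace N] [T2Space N] [CompactSpace N]
    [ChartedSpace E3 N], InC G N → ∀ (φ : E3 → N) (a b : ℝ), 0 < a → OE φ (ann a b) →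
    (∀ c, a < c → c < b → ∃ U V, SepS φ a c b U V) ∧
      ((∀ c U V, a < c → c < b → SepS φ a c b U V → KeepS G φ c b U) ∨
        ∀ c U V, a < c → c < b → SepS φ a c b U V → KeepS G (φ ∘ inv3) c⁻¹ a⁻¹ V)

/-! ## Tori -/

/-- the slab -/
def slab (a b : ℝ) : Set ((ℝ × ℝ) × ℝ) := {p | a < p.2 ∧ p.2 < b}

/-- `ψ` induces an open embedding of `T² × (a, b)`. -/
structure Collar {N : Type} [TopologicalSpace N] (ψ : (ℝ × ℝ) × ℝ → N) (a b : ℝ) : Prop where
  cont : ContinuousOn ψ (slab a b)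
  img : ∀ W ⊆ slab a b, IsOpen W → IsOpen (ψ '' W)
  eq_iff : ∀ p ∈ slab a b, ∀ q ∈ slab a b,
    ψ p = ψ q ↔ ∃ m n : ℤ, q = ((p.1.1 + m, p.1.2 + n), p.2)

/-- The torus at height `c` separates `N` into `U` (upper side) and `V` (lower side). -/
structure SepT {N : Type} [TopologicalSpace N] (ψ : (ℝ × ℝ) × ℝ → N) (a c b : ℝ) (U V : Set N) :
    Prop where
  oU : IsOpen U
  oV : IsOpen V
  disj : Disjoint U V
  cov : ∀ y, y ∈ U ∨ y ∈ V ∨ ∃ v, ψ (v, c) = y
  sU : ∀ v, ψ (v, c) ∉ U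
  sV : ∀ v, ψ (v, c) ∉ V
  mU : MapsTo ψ (slab c b) U
  mV : MapsTo ψ (slab a c) V

/-- `Φ` induces an open embedding of the solid torus of radius `R`. -/
structure Tube {N : Type} [TopologicalSpace N] (Φ : ℂ × ℝ → N) (R : ℝ) : Prop where
  cont : ContinuousOn Φ {p | ‖p.1‖ < R}
  img : ∀ W ⊆ {p : ℂ × ℝ | ‖p.1‖ < R}, IsOpen W → IsOpen (Φ '' W)
  eq_iff : ∀ p q : ℂ × ℝ, ‖p.1‖ < R → ‖q.1‖ < R →
    (Φ p = Φ q ↔ ∃ n : ℤ, q = (p.1, p.2 + n))

/-- Filling `U` along the slope `(1, 0)` of `ψ` gives a space of the class. -/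
def KeepT (G : Type) [Group G] {N : Type} [TopologicalSpace N] (ψ : (ℝ × ℝ) × ℝ → N) (c b : ℝ)
    (U : Set N) : Prop :=
  ∀ (N' : Type) [TopologicalSpace N'] [T2Space N'] (j : N → N') (Φ : ℂ × ℝ → N') (r₀ : ℝ),
    r₀ < c → OE j U → Tube Φ (b - r₀) →
    (∀ x y r : ℝ, c < r → r < b →
      Φ (((r - r₀ : ℝ) : ℂ) * Complex.exp (2 * Real.pi * x * Complex.I), y) = j (ψ ((x, y), r))) →
    (∀ p : ℂ × ℝ, ‖p.1‖ ≤ c - r₀ → ∀ u ∈ U, Φ p ≠ j u) →
    (∀ y, y ∈ j '' U ∨ y ∈ Φ '' {p | ‖p.1‖ < b - r₀}) → InC G N'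

/-- change of the basis of the lattice: the new basis is `(p, q)`, `(r, s)` -/
def reb {N : Type} (ψ : (ℝ × ℝ) × ℝ → N) (p q r s : ℤ) : (ℝ × ℝ) × ℝ → N :=
  fun z => ψ ((p * z.1.1 + r * z.1.2, q * z.1.1 + s * z.1.2), z.2)

/-- reflection of the height -/
def flipT {N : Type} (ψ : (ℝ × ℝ) × ℝ → N) : (ℝ × ℝ) × ℝ → N := fun z => ψ (z.1, -z.2)

/-- **TOR**: every two sided torus separates and one side has a filling in the class. -/
def TorGoal : Prop :=
  ∀ (G : Type) [Group G], Pk G → ∀ (N : Type) [TopologicalSpace N] [T2Space N] [CompactSpace N]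
    [ChartedSpace E3 N], InC G N → ∀ (ψ : (ℝ × ℝ) × ℝ → N) (a b : ℝ), Collar ψ a b →
    (∀ c, a < c → c < b → ∃ U V, SepT ψ a c b U V) ∧ ∃ p q r s : ℤ, p * s - q * r = 1 ∧
      ((∀ c U V, a < c → c < b → SepT ψ a c b U V → KeepT G (reb ψ p q r s) c b U) ∨
        ∀ c U V, a < c → c < b → SepT ψ a c b U V →
          KeepT G (flipT (reb ψ p q r s)) (-c) (-a) V)

/-! ## The fundamental class comes from the group -/

/-- **TOP**: an invariant cocycle on all tuples which is not locally an invariant coboundary. -/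
def TopGoal : Prop :=
  ∀ (G : Type) [Group G], CC G → NVC G → ∀ (N X : Type) [TopologicalSpace N] [T2Space N]
    [CompactSpace N] [ChartedSpace E3 N] [TopologicalSpace X] [MulAction G X] (P : X → N),
    SC X → Quo G P → ∃ ω : X → X → X → X → ZMod 2,
      (∀ (g : G) a b c d, ω (g • a) (g • b) (g • c) (g • d) = ω a b c d) ∧
      (∀ a b c d e, ω b c d e + ω a c d e + ω a b d e + ω a b c e + ω a b c d = 0) ∧
      ∀ β : X → X → X → ZMod 2, (∀ (g : G) a b c, β (g • a) (g • b) (g • c) = β a b c) →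
        ¬ ∀ x, ∃ W ∈ 𝓝 x, ∀ a ∈ W, ∀ b ∈ W, ∀ c ∈ W, ∀ d ∈ W,
          ω a b c d = β b c d + β a c d + β a b d + β a b c

/-! ## The group -/

/-- **T1** -/
def EndGoal : Prop := ∀ (G : Type) [Group G], Group.FG G → CC G → NVC G → OneEnd G

/-- **TF**: no torsion. -/
def TfGoal : Prop :=
  ∀ (G : Type) [Group G], CC G → NVC G → ∀ (N : Type) [TopologicalSpace N] [T2Space N]
    [CompactSpace N] [ChartedSpace E3 N], InC G N →
    ∀ (x : G) (n : ℕ), n ≠ 0 → x ^ n = 1 → x = 1

/-- **BS**: no Baumslag-Solitar relation. -/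
def BsGoal : Prop :=
  ∀ (G : Type) [Group G], CC G → NVC G → ∀ (N : Type) [TopologicalSpace N] [T2Space N]
    [CompactSpace N] [ChartedSpace E3 N], InC G N →
    ∀ (z t : G) (s : ℕ), s ≠ 0 → t * z * t⁻¹ = z ^ (3 ^ s) → z = 1

end Vale.Agent.P216T
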