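import Vale.Agent.P216T.Defs
import Mathlib.Topology.Covering.Quotient
import Mathlib.Topology.Homotopy.Lifting
import Mathlib.Analysis.Convex.Topology

/-!
# P216T: elementary facts on `Quo`, `SC`, `InC`
-/

set_option linter.all false

open Set Topology Filter unitInterval

noncomputable section

namespace Vale.Agent.P216T

namespace Quo

variable {G : Type} [Group G] {X N : Type} [TopologicalSpace X] [TopologicalSpace N]
  [MulAction G X] {P : X → N}

theorem continuous (h : Quo G P) : Continuous P := h.loc.continuous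

theorem isOpenMap (h : Quo G P) : IsOpenMap P := h.loc.isOpenMap

theorem cancel (h : Quo G P) {g g' : G} {x : X} (e : g • x = g' • x) : g = g' := by
  have h1 : (g'⁻¹ * g) • x = x := by rw [mul_smul, e, inv_smul_smul]
  exact (inv_mul_eq_one.1 (h.free _ _ h1)).symm

theorem eq_iff (h : Quo G P) {x y : X} : P x = P y ↔ ∃ g : G, g • x = y :=
  ⟨h.orb x y, by rintro ⟨g, rfl⟩; rw [h.inv]⟩

/-- an open neighbourhood disjoint from its translates -/
theorem exists_nbhd (h : Quo G P) (x : X) : ∃ U : Set X, IsOpen U ∧ x ∈ U ∧ InjOn P U ∧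
    ∀ g : G, ∀ y ∈ U, g • y ∈ U → g = 1 := by
  obtain ⟨U, hU, hx, hi⟩ := h.loc.isLocallyInjective x
  exact ⟨U, hU, hx, hi, fun g y hy hg => h.free g y (hi hg hy (h.inv g y))⟩

theorem qcm (h : Quo G P) : IsQuotientCoveringMap P G where
  toIsQuotientMap := h.isOpenMap.isQuotientMap h.continuous h.surj
  continuous_const_smul := h.cont
  apply_eq_iff_mem_orbit := fun {x y} => by
    rw [eq_comm, h.eq_iff]
    rfl
  disjoint x := by
    obtain ⟨U, hU, hx, -, hg⟩ := h.exists_nbhd x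
    exact ⟨U, hU.mem_nhds hx, fun g ⟨_, ⟨y, hy, rfl⟩, k⟩ => hg g y hy k⟩

theorem cov (h : Quo G P) : IsCoveringMap P := h.qcm.isCoveringMap

theorem t2 [T2Space N] (h : Quo G P) : T2Space X := by
  refine ⟨fun e e' hne => ?_⟩
  by_cases h1 : P e = P e'
  · exact h.cov.isSeparatedMap e e' h1 hne
  · obtain ⟨u, v, hu, hv, hxu, hxv, huv⟩ := t2_separation h1
    exact ⟨P ⁻¹' u, P ⁻¹' v, hu.preimage h.continuous, hv.preimage h.continuous, hxu, hxv,
      huv.preimage _⟩

/-- the translation as a homeomorphism -/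
def hom (h : Quo G P) (g : G) : X ≃ₜ X :=
  ⟨MulAction.toPerm g, h.cont g, h.cont g⁻¹⟩

theorem hom_apply (h : Quo G P) (g : G) (x : X) : h.hom g x = g • x := rfl

theorem isOpen_smul (h : Quo G P) (g : G) {U : Set X} (hU : IsOpen U) :
    IsOpen ((fun x => g • x) '' U) := (h.hom g).isOpenMap U hU

/-- **Properness.** -/
theorem proper [T2Space N] (h : Quo G P) {K L : Set X} (hK : IsCompact K) (hL : IsCompact L) :
    {g : G | ∃ x ∈ K, g • x ∈ L}.Finite := by
  have key : ∀ p : X × X, ∃ W ∈ 𝓝 p, {g : G | ∃ x, (x, g • x) ∈ W}.Finite := by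
    rintro ⟨x, y⟩
    by_cases h1 : P x = P y
    · obtain ⟨g₀, rfl⟩ := h.orb x y h1
      obtain ⟨U, hU, hx, -, hg⟩ := h.exists_nbhd x
      refine ⟨U ×ˢ ((fun z => g₀⁻¹ • z) ⁻¹' U), prod_mem_nhds (hU.mem_nhds hx)
        ((hU.preimage (h.cont _)).mem_nhds (by simpa using hx)), (finite_singleton g₀).subset ?_⟩
      rintro g ⟨z, h2, h3⟩
      have h4 : (g₀⁻¹ * g) • z ∈ U := by rw [mul_smul]; exact h3
      exact (inv_mul_eq_one.1 (hg _ z h2 h4)).symm
    · obtain ⟨u, v, hu, hv, hxu, hxv, huv⟩ := t2_separation h1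
      refine ⟨(P ⁻¹' u) ×ˢ (P ⁻¹' v), prod_mem_nhds ((hu.preimage h.continuous).mem_nhds hxu)
        ((hv.preimage h.continuous).mem_nhds hxv), finite_empty.subset ?_⟩
      rintro g ⟨z, h2, h3⟩
      have h4 : P z ∈ v := by rw [← h.inv g z]; exact h3
      exact (huv.ne_of_mem h2 h4 rfl).elim
  choose W hW hW' using key
  obtain ⟨T, -, hT⟩ := (hK.prod hL).elim_nhds_subcover W fun p _ => hW p
  refine (T.finite_toSet.biUnion fun p _ => hW' p).subset ?_
  rintro g ⟨x, hx, hg⟩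
  obtain ⟨p, hp, hp'⟩ := mem_iUnion₂.1 (hT (mk_mem_prod hx hg))
  exact mem_iUnion₂.2 ⟨p, hp, x, hp'⟩

/-- A compact set which meets all the orbits. -/
theorem exists_compact [CompactSpace N] [WeaklyLocallyCompactSpace X] (h : Quo G P) :
    ∃ K : Set X, IsCompact K ∧ ∀ x, ∃ g : G, g • x ∈ K := by
  choose K hK hK' using fun x : X => exists_compact_mem_nhds x
  choose s hs using h.surj
  obtain ⟨T, -, hT⟩ := isCompact_univ.elim_nhds_subcover (fun b : N => P '' K (s b)) fun b _ => by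
    have := h.isOpenMap.image_mem_nhds (hK' (s b))
    rwa [hs] at this
  refine ⟨⋃ b ∈ T, K (s b), T.isCompact_biUnion fun b _ => hK _, fun x => ?_⟩
  obtain ⟨b, hb, y, hy, e⟩ := mem_iUnion₂.1 (hT (mem_univ (P x)))
  obtain ⟨g, rfl⟩ := h.orb x y e.symm
  exact ⟨g, mem_iUnion₂.2 ⟨b, hb, hy⟩⟩

theorem homeo (h : Quo G P) {N' : Type} [TopologicalSpace N'] (e : N ≃ₜ N') : Quo G (e ∘ P) where
  loc := e.isLocalHomeomorph.comp h.loc
  surj := e.surjective.comp h.surj
  cont := h.cont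
  inv g x := congrArg e (h.inv g x)
  orb x y k := h.orb x y (e.injective k)
  free := h.free

end Quo

theorem InC.homeo {G : Type} [Group G] {N N' : Type} [TopologicalSpace N] [TopologicalSpace N']
    (h : InC G N) (e : N ≃ₜ N') : InC G N' := by
  obtain ⟨X, _, _, P, h1, h2⟩ := h
  exact ⟨X, _, _, e ∘ P, h1, h2.homeo e⟩

theorem InC.conn {G : Type} [Group G] {N : Type} [TopologicalSpace N] (h : InC G N) :
    ConnectedSpace N := by
  obtain ⟨X, _, _, P, h1, h2⟩ := h
  haveI := h1.conn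
  exact h2.surj.connectedSpace h2.continuous

section Lift

variable {E B Y : Type} [TopologicalSpace E] [TopologicalSpace B] [TopologicalSpace Y] {p : E → B}

/-- **Extension of lifts** along a deformation of `K` into `S`, which is stationary on `S`. -/
theorem lift_deform (hp : IsCoveringMap p) {K S : Set Y} {f : Y → B} (hf : ContinuousOn f K)
    (H : ℝ × Y → Y) (hH : ContinuousOn H (Icc 0 1 ×ˢ K)) (hK : ∀ t ∈ Icc (0 : ℝ) 1, ∀ y ∈ K,
      H (t, y) ∈ K) (h0 : ∀ y ∈ K, H (0, y) ∈ S) (h1 : ∀ y ∈ K, H (1, y) = y)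
    (hS : ∀ t ∈ Icc (0 : ℝ) 1, ∀ y ∈ S, H (t, y) = y) {F₀ : Y → E} (hF : ContinuousOn F₀ S)
    (hp0 : ∀ y ∈ S, p (F₀ y) = f y) :
    ∃ F : Y → E, ContinuousOn F K ∧ (∀ y ∈ K, p (F y) = f y) ∧ ∀ y ∈ K, y ∈ S → F y = F₀ y := by
  classical
  have c1 : Continuous fun q : I × K => H (q.1, q.2) :=
    hH.comp_continuous (by fun_prop) fun q => ⟨q.1.2, q.2.2⟩
  have c2 : Continuous fun y : K => H (0, y) :=
    hH.comp_continuous (by fun_prop) fun y => ⟨⟨le_rfl, zero_le_one⟩, y.2⟩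
  let H' : C(I × K, B) := ⟨fun q => f (H (q.1, q.2)),
    hf.comp_continuous c1 fun q => hK _ q.1.2 _ q.2.2⟩
  let f₀ : C(K, E) := ⟨fun y => F₀ (H (0, y)), hF.comp_continuous c2 fun y => h0 _ y.2⟩
  have e0 : ∀ y : K, H' (0, y) = p (f₀ y) := fun y => (hp0 _ (h0 _ y.2)).symm
  let L := hp.liftHomotopy H' f₀ e0
  have hL : ∀ q, p (L q) = H' q := congrFun (hp.liftHomotopy_lifts H' f₀ e0)
  refine ⟨fun y => if h : y ∈ K then L (1, ⟨y, h⟩) else F₀ y, ?_, fun y hy => ?_,
    fun y hy hy' => ?_⟩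
  · rw [continuousOn_iff_continuous_restrict]
    have : (K.domRestrict fun y => if h : y ∈ K then L (1, ⟨y, h⟩) else F₀ y) = fun y => L (1, y) :=
      funext fun y => dif_pos y.2
    rw [this]
    fun_prop
  · beta_reduce
    rw [dif_pos hy, hL]
    exact congrArg f (h1 y hy)
  · beta_reduce
    rw [dif_pos hy]
    have h2 := hp.const_of_comp (g := fun t : I => L (t, ⟨y, hy⟩)) (by fun_prop) (fun t t' => by
      rw [hL, hL]
      show f (H (t, y)) = f (H (t', y))
      rw [hS _ t.2 _ hy', hS _ t'.2 _ hy']) 1 0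
    rw [h2]
    refine (hp.liftHomotopy_zero H' f₀ e0 _).trans ?_
    show F₀ (H (0, y)) = F₀ y
    rw [hS _ ⟨le_rfl, zero_le_one⟩ _ hy']

/-- Lifts on convex sets. -/
theorem lift_convex {V : Type} [NormedAddCommGroup V] [NormedSpace ℝ V] (hp : IsCoveringMap p)
    {K : Set V} (hK : Convex ℝ K) {f : V → B} (hf : ContinuousOn f K) {x₀ : V} (hx : x₀ ∈ K)
    {e₀ : E} (he : p e₀ = f x₀) :
    ∃ F : V → E, ContinuousOn F K ∧ (∀ y ∈ K, p (F y) = f y) ∧ F x₀ = e₀ := by
  obtain ⟨F, h1, h2, h3⟩ := lift_deform hp (S := {x₀}) hf (fun q => x₀ + q.1 • (q.2 - x₀))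
    (by fun_prop) (fun t ht y hy => hK.add_smul_sub_mem hx hy ht) (fun y _ => by simp)
    (fun y _ => by simp) (fun t _ y hy => by rw [mem_singleton_iff.1 hy]; simp)
    (F₀ := fun _ => e₀) continuousOn_const (fun y hy => by rw [mem_singleton_iff.1 hy, he])
  exact ⟨F, h1, h2, h3 x₀ hx rfl⟩

end Lift

theorem SC.of_simplyConnected (X : Type) [TopologicalSpace X] [SimplyConnectedSpace X]
    [LocallyPathConnectedSpace X] : SC X where
  conn := inferInstance
  lift E B _ _ p hp f hf x₀ e₀ he := by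
    obtain ⟨F, ⟨h1, h2⟩, -⟩ := hp.existsUnique_continuousMap_lifts ⟨f, hf⟩ x₀ e₀ he
    exact ⟨F, F.continuous, h1, congrFun h2⟩

theorem SC.homeo {X Y : Type} [TopologicalSpace X] [TopologicalSpace Y] (h : SC X) (e : X ≃ₜ Y) :
    SC Y where
  conn := by
    haveI := h.conn
    exact e.surjective.connectedSpace e.continuous
  lift E B _ _ p hp f hf y₀ e₀ he := by
    obtain ⟨F, h1, h2, h3⟩ := h.lift E B p hp (f ∘ e) (hf.comp e.continuous) (e.symm y₀) e₀
      (by simpa using he)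
    exact ⟨F ∘ e.symm, h1.comp e.symm.continuous, h2, fun y => by simpa using h3 (e.symm y)⟩

/-- A connected covering of a space with `SC` is injective. -/
theorem SC.inj {X E : Type} [TopologicalSpace X] [TopologicalSpace E] [PreconnectedSpace E]
    (h : SC X) {p : E → X} (hp : IsCoveringMap p) : Function.Injective p := by
  intro e e' he
  obtain ⟨F, h1, h2, h3⟩ := h.lift E X p hp id continuous_id (p e) e rfl
  have h4 := hp.eq_of_comp_eq (g₁ := F ∘ p) (g₂ := id) (h1.comp hp.continuous) continuous_id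
    (funext fun x => h3 (p x)) e h2
  have h5 := congrFun h4 e'
  have h6 : F (p e') = e' := h5
  rw [← h6, ← he, h2]

end Vale.Agent.P216T
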