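import Vale.Agent.P216T.Cov

/-!
# P216T: gluing a `G`-covering with an induced covering
-/

set_option linter.all false

open Set Topology Filter

noncomputable section

namespace Vale.Agent.P216T

theorem loc_of {X N : Type} [TopologicalSpace X] [TopologicalSpace N] {f : X → N}
    (hc : Continuous f) (ho : IsOpenMap f) (hi : ∀ x, ∃ U, IsOpen U ∧ x ∈ U ∧ InjOn f U) :
    IsLocalHomeomorph f := by
  rw [isLocalHomeomorph_iff_isOpenEmbedding_restrict]
  intro x
  obtain ⟨U, hU, hx, h⟩ := hi x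
  exact ⟨U, hU.mem_nhds hx, .of_continuous_injective_isOpenMap (hc.comp continuous_subtype_val)
    (fun a b e => Subtype.ext (h a.2 b.2 e)) (ho.comp hU.isOpenMap_subtype_val)⟩

/-- A lift of an open map is open. -/
theorem open_of_lift {X N Y : Type} [TopologicalSpace X] [TopologicalSpace N] [TopologicalSpace Y]
    {P : X → N} (hP : IsLocalHomeomorph P) {F : Y → X} {S : Set Y} (hF : ContinuousOn F S)
    (ho : ∀ W ⊆ S, IsOpen W → IsOpen ((fun y => P (F y)) '' W)) {W : Set Y} (hW : W ⊆ S)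
    (hW' : IsOpen W) : IsOpen (F '' W) := by
  rw [isOpen_iff_mem_nhds]
  rintro _ ⟨y, hy, rfl⟩
  obtain ⟨U, hU, hx, h⟩ := hP.isLocallyInjective (F y)
  have h1 : IsOpen (W ∩ F ⁻¹' U) := (hF.mono hW).isOpen_inter_preimage hW' hU
  have h2 := (ho _ (inter_subset_left.trans hW) h1).preimage hP.continuous
  refine mem_of_superset ((hU.inter h2).mem_nhds ⟨hx, y, ⟨hy, hx⟩, rfl⟩) ?_
  rintro x ⟨h3, w, h4, h5⟩
  exact ⟨w, h4.1, h h4.2 h3 h5⟩

/-- `Quo` without surjectivity -/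
structure QuoO (G : Type) [Group G] {X N : Type} [TopologicalSpace X] [TopologicalSpace N]
    [MulAction G X] (P : X → N) : Prop where
  loc : IsLocalHomeomorph P
  cont : ∀ g : G, Continuous fun x : X => g • x
  inv : ∀ (g : G) (x : X), P (g • x) = P x
  orb : ∀ x y : X, P x = P y → ∃ g : G, g • x = y
  free : ∀ (g : G) (x : X), g • x = x → g = 1

/-- gluing data -/
structure GD (G Λ X Q N : Type) [Group G] [Group Λ] [TopologicalSpace X] [TopologicalSpace Q]
    [TopologicalSpace N] [MulAction G X] [MulAction Λ Q] where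
  P : X → N
  Φ : Q → N
  m : Λ →* G
  θ : Q → X
  hP : QuoO G P
  hΦ : QuoO Λ Φ
  cov : ∀ y, y ∈ range P ∨ y ∈ range Φ
  cθ : ContinuousOn θ (Φ ⁻¹' range P)
  pθ : ∀ q, Φ q ∈ range P → P (θ q) = Φ q
  eθ : ∀ (l : Λ) q, Φ q ∈ range P → θ (l • q) = m l • θ q

namespace GD

variable {G Λ X Q N : Type} [Group G] [Group Λ] [TopologicalSpace X] [TopologicalSpace Q]
  [TopologicalSpace N] [MulAction G X] [MulAction Λ Q] (D : GD G Λ X Q N)

/-- the glued space -/
def T : Type := X ⊕ (G × {y : N // y ∉ range D.P})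

/-- the old part -/
def inl (x : X) : D.T := Sum.inl x

/-- the new part -/
def inr (g : G) (y : {y : N // y ∉ range D.P}) : D.T := Sum.inr (g, y)

instance : MulAction G D.T where
  smul g := Sum.map (fun x => g • x) fun p => (g * p.1, p.2)
  one_smul x := by
    rcases x with x | ⟨g, y⟩
    · exact congrArg Sum.inl (one_smul G x)
    · exact congrArg (fun h => Sum.inr (h, y)) (one_mul g)
  mul_smul a b x := by
    rcases x with x | ⟨g, y⟩
    · exact congrArg Sum.inl (mul_smul a b x)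
    · exact congrArg (fun h => Sum.inr (h, y)) (mul_assoc a b g)

theorem smul_inl (g : G) (x : X) : g • D.inl x = D.inl (g • x) := rfl

theorem smul_inr (g h : G) (y) : g • D.inr h y = D.inr (g * h) y := rfl

theorem inl_inj : Function.Injective D.inl := Sum.inl_injective

/-- a section -/
def sec (y : N) (h : y ∈ range D.Φ) : Q := h.choose

theorem sec_spec (y : N) (h : y ∈ range D.Φ) : D.Φ (D.sec y h) = y := h.choose_spec

/-- the position of a point in its fibre -/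
def lam (q : Q) : Λ := (D.hΦ.orb _ q (D.sec_spec (D.Φ q) ⟨q, rfl⟩)).choose

theorem lam_spec (q : Q) : D.lam q • D.sec (D.Φ q) ⟨q, rfl⟩ = q :=
  (D.hΦ.orb _ q (D.sec_spec (D.Φ q) ⟨q, rfl⟩)).choose_spec

theorem lam_smul (l : Λ) (q : Q) : D.lam (l • q) = l * D.lam q := by
  have h1 := D.lam_spec (l • q)
  have h2 : D.sec (D.Φ (l • q)) ⟨_, rfl⟩ = D.sec (D.Φ q) ⟨q, rfl⟩ := by
    congr 1
    exact D.hΦ.inv l q
  rw [h2] at h1
  have h3 : ((l * D.lam q)⁻¹ * D.lam (l • q)) • D.sec (D.Φ q) ⟨q, rfl⟩ =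
      D.sec (D.Φ q) ⟨q, rfl⟩ := by
    rw [mul_smul, h1, inv_smul_eq_iff, mul_smul, D.lam_spec]
  exact (inv_mul_eq_one.1 (D.hΦ.free _ _ h3)).symm

open Classical in
/-- the map of the model -/
def ι (q : Q) : D.T :=
  if h : D.Φ q ∈ range D.P then D.inl (D.θ q) else D.inr (D.m (D.lam q)) ⟨D.Φ q, h⟩

theorem ι_pos {q : Q} (h : D.Φ q ∈ range D.P) : D.ι q = D.inl (D.θ q) := dif_pos h

theorem ι_neg {q : Q} (h : D.Φ q ∉ range D.P) :
    D.ι q = D.inr (D.m (D.lam q)) ⟨D.Φ q, h⟩ := dif_neg h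

theorem ι_smul (l : Λ) (q : Q) : D.ι (l • q) = D.m l • D.ι q := by
  by_cases h : D.Φ q ∈ range D.P
  · rw [D.ι_pos h, D.ι_pos (by rwa [D.hΦ.inv]), D.eθ l q h, smul_inl]
  · rw [D.ι_neg h, D.ι_neg (by rwa [D.hΦ.inv]), smul_inr, lam_smul, map_mul]
    congr 2
    exact D.hΦ.inv l q

/-- the projection -/
def pr : D.T → N := Sum.elim D.P fun p => p.2.1

theorem pr_inl (x : X) : D.pr (D.inl x) = D.P x := rfl

theorem pr_ι (q : Q) : D.pr (D.ι q) = D.Φ q := by
  by_cases h : D.Φ q ∈ range D.P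
  · rw [D.ι_pos h, pr_inl, D.pθ q h]
  · rw [D.ι_neg h]
    rfl

theorem pr_smul (g : G) (x : D.T) : D.pr (g • x) = D.pr x := by
  rcases x with x | ⟨h, y⟩
  · exact D.hP.inv g x
  · rfl

theorem orb (x y : D.T) (h : D.pr x = D.pr y) : ∃ g : G, g • x = y := by
  rcases x with x | ⟨a, x⟩ <;> rcases y with y | ⟨b, y⟩
  · obtain ⟨g, rfl⟩ := D.hP.orb x y h
    exact ⟨g, rfl⟩
  · exact absurd ⟨x, h⟩ y.2
  · exact absurd ⟨y, h.symm⟩ x.2
  · obtain rfl : x = y := Subtype.ext h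
    exact ⟨b * a⁻¹, (D.smul_inr _ a x).trans (by rw [inv_mul_cancel_right]; rfl)⟩

theorem free (g : G) (x : D.T) (h : g • x = x) : g = 1 := by
  rcases x with x | ⟨a, x⟩
  · exact D.hP.free g x (Sum.inl_injective h)
  · exact mul_eq_right.1 (congrArg Prod.fst (Sum.inr_injective h))

theorem cases (x : D.T) : (∃ y, x = D.inl y) ∨ ∃ (g : G) (q : Q), x = g • D.ι q := by
  rcases x with x | ⟨a, y⟩
  · exact .inl ⟨x, rfl⟩
  · obtain ⟨q, hq⟩ := (D.cov y.1).resolve_left y.2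
    obtain ⟨g, hg⟩ := D.orb (D.ι q) (D.inr a y) ((D.pr_ι q).trans hq)
    exact .inr ⟨g, q, hg.symm⟩

theorem eq_inl {g : G} {q : Q} {x : X} (h : g • D.ι q = D.inl x) :
    D.Φ q ∈ range D.P ∧ g • D.θ q = x := by
  have h1 : D.Φ q ∈ range D.P := ⟨x, by rw [← D.pr_inl, ← h, pr_smul, pr_ι]⟩
  rw [D.ι_pos h1, smul_inl] at h
  exact ⟨h1, D.inl_inj h⟩

instance : TopologicalSpace D.T where
  IsOpen V := IsOpen (D.inl ⁻¹' V) ∧ ∀ g : G, IsOpen ((fun q => g • D.ι q) ⁻¹' V)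
  isOpen_univ := ⟨isOpen_univ, fun _ => isOpen_univ⟩
  isOpen_inter V W h h' := ⟨h.1.inter h'.1, fun g => (h.2 g).inter (h'.2 g)⟩
  isOpen_sUnion S h := ⟨by rw [preimage_sUnion]; exact isOpen_biUnion fun V k => (h V k).1,
    fun g => by rw [preimage_sUnion]; exact isOpen_biUnion fun V k => (h V k).2 g⟩

theorem cont_inl : Continuous D.inl := continuous_def.2 fun _ h => h.1

theorem cont_gι (g : G) : Continuous fun q => g • D.ι q := continuous_def.2 fun _ h => h.2 g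

theorem cont_ι : Continuous D.ι := by simpa using D.cont_gι 1

theorem cont_of {Z : Type} [TopologicalSpace Z] {f : D.T → Z}
    (h : Continuous fun x => f (D.inl x)) (h' : ∀ g : G, Continuous fun q => f (g • D.ι q)) :
    Continuous f :=
  continuous_def.2 fun _ hV => ⟨hV.preimage h, fun g => hV.preimage (h' g)⟩

theorem cont_smul (g : G) : Continuous fun x : D.T => g • x :=
  D.cont_of (D.cont_inl.comp (D.hP.cont g)) fun h => by
    simpa only [← mul_smul] using D.cont_gι (g * h)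

theorem opn : IsOpen (D.Φ ⁻¹' range D.P) :=
  D.hP.loc.isOpenMap.isOpen_range.preimage D.hΦ.loc.continuous

theorem open_inl : IsOpenMap D.inl := fun W hW => by
  refine ⟨by rwa [preimage_image_eq _ D.inl_inj], fun g => ?_⟩
  convert D.cθ.isOpen_inter_preimage D.opn (hW.preimage (D.hP.cont g)) using 1
  ext q
  constructor
  · rintro ⟨x, hx, e⟩
    obtain ⟨h1, rfl⟩ := D.eq_inl e.symm
    exact ⟨h1, hx⟩
  · rintro ⟨h1, h2⟩
    exact ⟨_, h2, by beta_reduce; rw [D.ι_pos h1, smul_inl]⟩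

theorem open_ι : IsOpenMap D.ι := fun W hW => by
  refine ⟨?_, fun g => ?_⟩
  · convert open_of_lift D.hP.loc D.cθ (fun V hV hV' => by
      rw [image_congr (g := D.Φ) fun q hq => D.pθ q (hV hq)]
      exact D.hΦ.loc.isOpenMap V hV') inter_subset_left (D.opn.inter hW) using 1
    ext x
    constructor
    · rintro ⟨q, hq, e⟩
      obtain ⟨h1, h2⟩ := D.eq_inl (g := 1) (by rw [one_smul]; exact e)
      exact ⟨q, ⟨h1, hq⟩, by rw [← h2, one_smul]⟩
    · rintro ⟨q, ⟨h1, hq⟩, rfl⟩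
      exact ⟨q, hq, D.ι_pos h1⟩
  · convert isOpen_biUnion (s := {l : Λ | D.m l = g}) fun l _ => hW.preimage (D.hΦ.cont l) using 1
    ext q
    simp only [mem_preimage, mem_iUnion, mem_setOf_eq, mem_image, exists_prop]
    constructor
    · rintro ⟨w, hw, e⟩
      obtain ⟨l, rfl⟩ := D.hΦ.orb q w (by rw [← D.pr_ι, ← D.pr_ι w, e, pr_smul])
      refine ⟨l, ?_, hw⟩
      rw [ι_smul, ← inv_smul_eq_iff, ← mul_smul, eq_comm] at e
      have := D.free _ _ e.symm
      exact (inv_mul_eq_one.1 this).symm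
    · rintro ⟨l, rfl, hw⟩
      exact ⟨_, hw, D.ι_smul l q⟩

theorem cont_pr : Continuous D.pr :=
  D.cont_of D.hP.loc.continuous fun g => by
    simpa only [pr_smul, pr_ι] using D.hΦ.loc.continuous

theorem open_gι (g : G) {W : Set Q} (hW : IsOpen W) : IsOpen ((fun q => g • D.ι q) '' W) := by
  convert (D.open_ι W hW).preimage (D.cont_smul g⁻¹) using 1
  ext x
  simp only [mem_image, mem_preimage, eq_inv_smul_iff]

theorem quo : Quo G D.pr where
  loc := by
    refine loc_of D.cont_pr (fun V hV => ?_) fun x => ?_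
    · convert (D.hP.loc.isOpenMap _ hV.1).union
        (isOpen_iUnion fun g : G => D.hΦ.loc.isOpenMap _ (hV.2 g)) using 1
      ext y
      constructor
      · rintro ⟨x, hx, rfl⟩
        rcases D.cases x with ⟨x, rfl⟩ | ⟨g, q, rfl⟩
        · exact .inl ⟨x, hx, rfl⟩
        · exact .inr (mem_iUnion.2 ⟨g, q, hx, by rw [pr_smul, pr_ι]⟩)
      · rintro (⟨x, hx, rfl⟩ | h)
        · exact ⟨_, hx, rfl⟩
        · obtain ⟨g, q, hq, rfl⟩ := mem_iUnion.1 h
          exact ⟨_, hq, by rw [pr_smul, pr_ι]⟩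
    · rcases D.cases x with ⟨x, rfl⟩ | ⟨g, q, rfl⟩
      · obtain ⟨U, hU, hx, h⟩ := D.hP.loc.isLocallyInjective x
        refine ⟨_, D.open_inl U hU, mem_image_of_mem _ hx, ?_⟩
        rintro _ ⟨a, ha, rfl⟩ _ ⟨b, hb, rfl⟩ e
        rw [h ha hb e]
      · obtain ⟨U, hU, hx, h⟩ := D.hΦ.loc.isLocallyInjective q
        refine ⟨_, D.open_gι g hU, mem_image_of_mem _ hx, ?_⟩
        rintro _ ⟨a, ha, rfl⟩ _ ⟨b, hb, rfl⟩ e
        simp only [pr_smul, pr_ι] at e
        rw [h ha hb e]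
  surj y := by
    rcases D.cov y with ⟨x, rfl⟩ | ⟨q, rfl⟩
    · exact ⟨D.inl x, rfl⟩
    · exact ⟨D.ι q, D.pr_ι q⟩
  cont := D.cont_smul
  inv := D.pr_smul
  orb := D.orb
  free := D.free

/-- **The glued space is simply connected** if it receives a map from a simply connected space
which is onto the old part in a suitable way. -/
theorem sc {Z : Type} [TopologicalSpace Z] (hZ : SC Z) (hQ : SC Q)
    (hS : IsPreconnected (D.Φ ⁻¹' range D.P)) (hS' : (D.Φ ⁻¹' range D.P).Nonempty)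
    {φ : Z → D.T} (hφ : Continuous φ) {κ : X → Z} (hκ : Continuous κ)
    (hφκ : ∀ x, φ (κ x) = D.inl x) : SC D.T := by
  classical
  haveI := hZ.conn
  haveI := hQ.conn
  obtain ⟨q₁, hq₁⟩ := hS'
  have key : ∀ (E B : Type) [TopologicalSpace E] [TopologicalSpace B] (p : E → B),
      IsCoveringMap p → ∀ f : D.T → B, Continuous f → ∀ (x₀ : X) (e₀ : E), p e₀ = f (D.inl x₀) →
      ∃ F : D.T → E, Continuous F ∧ F (D.inl x₀) = e₀ ∧ ∀ x, p (F x) = f x := by
    intro E B _ _ p hp f hf x₀ e₀ he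
    obtain ⟨F, h1, h2, h3⟩ := hZ.lift E B p hp (f ∘ φ) (hf.comp hφ) (κ x₀) e₀
      (by rw [he, ← hφκ]; rfl)
    have h4 : ∀ x, p (F (κ x)) = f (D.inl x) := fun x => by rw [h3, ← hφκ]; rfl
    have h5 : ∀ g : G, ∃ L : Q → E, Continuous L ∧ (∀ q, p (L q) = f (g • D.ι q)) ∧
        ∀ q, D.Φ q ∈ range D.P → L q = F (κ (g • D.θ q)) := by
      intro g
      obtain ⟨L, a1, a2, a3⟩ := hQ.lift E B p hp (fun q => f (g • D.ι q))
        (hf.comp (D.cont_gι g)) q₁ (F (κ (g • D.θ q₁))) (by rw [h4, D.ι_pos hq₁, smul_inl])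
      refine ⟨L, a1, a3, fun q hq => hp.eqOn_of_comp_eqOn hS a1.continuousOn
        ((h1.comp (hκ.comp (D.hP.cont g))).comp_continuousOn D.cθ) (fun q hq => ?_) hq₁ a2 hq⟩
      show p (L q) = p (F (κ (g • D.θ q)))
      rw [a3, h4, D.ι_pos hq, smul_inl]
    choose L a1 a2 a3 using h5
    have h6 : ∀ (g g' : G) q q', g • D.ι q = g' • D.ι q' → L g q = L g' q' := by
      intro g g' q q' e
      obtain ⟨l, rfl⟩ := D.hΦ.orb q q' (by
        rw [← D.pr_ι, ← D.pr_ι q', ← D.pr_smul g, e, pr_smul])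
      rw [ι_smul, ← mul_smul, ← inv_smul_eq_iff, ← mul_smul] at e
      obtain rfl := inv_mul_eq_one.1 (D.free _ _ e)
      refine congrFun (hp.eq_of_comp_eq (g₂ := fun q => L g' (l • q)) (a1 _)
        ((a1 _).comp (D.hΦ.cont l)) (funext fun q => ?_) q₁ ?_) q
      · show p (L _ q) = p (L g' (l • q))
        rw [a2, a2, ι_smul, mul_smul]
      · beta_reduce
        rw [a3 _ _ hq₁, a3 _ _ (by rwa [D.hΦ.inv]), D.eθ l q₁ hq₁, mul_smul]
    have h7 : ∀ x : D.T, ∃ e : E, (∀ y, x = D.inl y → e = F (κ y)) ∧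
        ∀ (g : G) q, x = g • D.ι q → e = L g q := by
      intro x
      rcases D.cases x with ⟨x, rfl⟩ | ⟨g, q, rfl⟩
      · refine ⟨F (κ x), fun y e => by rw [D.inl_inj e], fun g q e => ?_⟩
        obtain ⟨b1, rfl⟩ := D.eq_inl e.symm
        exact (a3 g q b1).symm
      · refine ⟨L g q, fun y e => ?_, fun g' q' e => h6 _ _ _ _ e⟩
        obtain ⟨b1, rfl⟩ := D.eq_inl e
        exact a3 g q b1
    choose F' b1 b2 using h7
    refine ⟨F', D.cont_of ?_ fun g => ?_, (b1 _ _ rfl).trans h2, fun x => ?_⟩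
    · exact (h1.comp hκ).congr fun x => (b1 _ x rfl).symm
    · exact (a1 g).congr fun q => (b2 _ g q rfl).symm
    · rcases D.cases x with ⟨x, rfl⟩ | ⟨g, q, rfl⟩
      · rw [b1 _ _ rfl, h4]
      · rw [b2 _ _ _ rfl, a2]
  refine ⟨?_, fun E B _ _ p hp f hf x₀ e₀ he => ?_⟩
  · have h1 : IsPreconnected (range φ) := isPreconnected_range hφ
    refine connectedSpace_iff_univ.2 ⟨⟨D.ι q₁, mem_univ _⟩, isPreconnected_of_forall_pair ?_⟩
    have h2 : ∀ x : D.T, ∃ t : Set D.T, range φ ⊆ t ∧ x ∈ t ∧ IsPreconnected t := by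
      intro x
      rcases D.cases x with ⟨x, rfl⟩ | ⟨g, q, rfl⟩
      · exact ⟨_, subset_rfl, ⟨_, hφκ x⟩, h1⟩
      · refine ⟨range φ ∪ range fun q => g • D.ι q, subset_union_left, .inr ⟨q, rfl⟩,
          h1.union (g • D.ι q₁) ⟨_, (hφκ (g • D.θ q₁)).trans ?_⟩ ⟨q₁, rfl⟩
            (isPreconnected_range (D.cont_gι g))⟩
        rw [D.ι_pos hq₁, smul_inl]
    intro x _ y _
    obtain ⟨t, c1, c2, c3⟩ := h2 x
    obtain ⟨t', d1, d2, d3⟩ := h2 y
    obtain ⟨z⟩ : Nonempty Z := inferInstance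
    exact ⟨t ∪ t', subset_univ _, .inl c2, .inr d2, c3.union (φ z) (c1 ⟨z, rfl⟩) (d1 ⟨z, rfl⟩) d3⟩
  · rcases D.cases x₀ with ⟨x, rfl⟩ | ⟨g, q, rfl⟩
    · exact key E B p hp f hf x e₀ he
    · obtain ⟨L, a1, a2, a3⟩ := hQ.lift E B p hp (fun q => f (g • D.ι q))
        (hf.comp (D.cont_gι g)) q e₀ he
      obtain ⟨F, b1, b2, b3⟩ := key E B p hp f hf (g • D.θ q₁) (L q₁)
        (by rw [a3, D.ι_pos hq₁, smul_inl])
      refine ⟨F, b1, ?_, b3⟩
      rw [← a2]
      refine congrFun (hp.eq_of_comp_eq (g₁ := fun q => F (g • D.ι q)) (b1.comp (D.cont_gι g)) a1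
        (funext fun q => ?_) q₁ ?_) q
      · show p (F _) = p (L q)
        rw [a3, b3]
      · beta_reduce
        rw [D.ι_pos hq₁, smul_inl, b2]

end GD

end Vale.Agent.P216T
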