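import Vale.Agent.P216T.Defs
import Mathlib.Topology.Instances.AddCircle.Defs

/-!
# P216T: the slope of a torus which lifts to the universal covering
-/

set_option linter.all false

open Set Topology

namespace Vale.Agent.P216T

/-- **HL**: a primitive class of the torus extends over the precisely invariant side. -/
def HLGoal : Prop :=
  ∀ (G : Type) [Group G] (N X : Type) [TopologicalSpace N] [T2Space N]
    [CompactSpace N] [ChartedSpace E3 N] [TopologicalSpace X] [MulAction G X] (P : X → N),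
    SC X → Quo G P → ∀ (F : (ℝ × ℝ) × ℝ → X) (a b : ℝ) (A : Set X), a < b → Collar F a b →
    IsClosed A → (∀ c, a < c → c < b → ∃ U, SepT F a c b U (A ∪ F '' slab a c)) →
    (∀ (g : G), ∀ x ∈ A ∪ F '' slab a b, g • x ∈ A ∪ F '' slab a b → g = 1) →
    ∃ (θ : X → AddCircle (1 : ℝ)) (t : (ℝ × ℝ) × ℝ → ℝ) (i j : ℤ),
      ContinuousOn θ (A ∪ F '' slab a b) ∧ ContinuousOn t (slab a b) ∧ IsCoprime i j ∧
      ∀ p ∈ slab a b, θ (F p) = (t p : AddCircle (1 : ℝ)) ∧
        t ((p.1.1 + 1, p.1.2), p.2) = t p + i ∧ t ((p.1.1, p.1.2 + 1), p.2) = t p + j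

end Vale.Agent.P216T
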