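import Vale.Agent.P216T.Cov
import Vale.Agent.P216M.Gal

/-!
# P216T: the universal cocycle with finitely many values
-/

set_option linter.all false

open Set Filter Topology Metric

namespace Vale.Agent.P216T

open Vale.Agent.P216M (Univ HasSec exists_unif_conn)

theorem SC.hasSec {B : Type} [TopologicalSpace B] (hB : SC B) (G : Type) [Group G] :
    HasSec B G := by
  intro ι U hU cov T hloc hself hco
  classical
  letI : TopologicalSpace G := ⊥
  haveI : DiscreteTopology G := ⟨rfl⟩
  haveI := hB.conn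
  choose ix hix using cov
  let Z := P216.D246.coreOf U hU ix hix T hloc hself hco
  have hcov : IsCoveringMap Z.proj :=
    IsCoveringMap.mk Z.proj (fun _ => G) (fun b => Z.localTriv (ix b)) fun b => hix b
  obtain ⟨b₀⟩ : Nonempty B := inferInstance
  obtain ⟨s, hsc, -, hs1⟩ := hB.lift _ _ _ hcov id continuous_id b₀
    (⟨b₀, (1 : G)⟩ : Z.TotalSpace) rfl
  replace hs1 : ∀ b, (s b).1 = b := hs1
  refine ⟨fun i b => (Z.localTriv i (s b)).2, fun i b hb => ?_, fun i j b hb => ?_⟩
  · have h1 : ContinuousAt (fun b => (Z.localTriv i (s b)).2) b := by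
      have h2 : ContinuousAt (Z.localTriv i) (s b) := by
        refine (Z.localTriv i).continuousAt ?_
        rw [Z.mem_localTriv_source]
        change (s b).1 ∈ U i
        rw [hs1]
        exact hb
      exact continuousAt_snd.comp (h2.comp hsc.continuousAt)
    have h3 := h1.tendsto
    rw [nhds_discrete G] at h3
    exact h3.eventually (p := fun y => y = (Z.localTriv i (s b)).2) (eventually_pure.2 rfl)
  · have key : ∀ (b' : B) (v : G), b' = b → T i (ix b') b' * v = T i j b * (T j (ix b') b' * v) := by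
      rintro b' v rfl
      rw [← mul_assoc, hco i j (ix b') b' ⟨⟨hb.1, hb.2⟩, hix b'⟩]
    exact key _ _ (hs1 b)

namespace Quo

variable {H U N : Type} [Group H] [TopologicalSpace U] [MulAction H U] {P : U → N}

/-- Cocycles of open coverings. -/
theorem cech [TopologicalSpace N] (g : Quo H P) (hU : SC U) {A ι : Type} [Group A] (V : ι → Set N)
    (hV : ∀ i, IsOpen (V i)) (cov : ∀ b, ∃ i, b ∈ V i) (T : ι → ι → N → A)
    (hloc : ∀ i j, ∀ b ∈ V i ∩ V j, ∀ᶠ b' in 𝓝 b, T i j b' = T i j b)
    (hself : ∀ i, ∀ b ∈ V i, T i i b = 1)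
    (hco : ∀ i j l, ∀ b ∈ V i ∩ V j ∩ V l, T i j b * T j l b = T i l b) :
    ∃ (σ : ι → U → A) (Φ : H →* A),
      (∀ i e, P e ∈ V i → ∀ᶠ e' in 𝓝 e, σ i e' = σ i e) ∧
      (∀ i j e, P e ∈ V i → P e ∈ V j → σ i e = T i j (P e) * σ j e) ∧
      ∀ i (h : H) e, P e ∈ V i → σ i (h • e) = σ i e * (Φ h)⁻¹ := by
  have hP := g.loc.continuous
  haveI := hU.conn
  obtain ⟨σ, h1, h2⟩ := hU.hasSec A ι (fun i => P ⁻¹' V i)
    (fun i => (hV i).preimage hP) (fun e => cov (P e)) (fun i j e => T i j (P e))
    (fun i j e he => hP.continuousAt.eventually (hloc i j (P e) he))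
    (fun i e he => hself i _ he) (fun i j l e he => hco i j l _ he)
  choose ix hix using cov
  let F : H → U → A := fun h e => (σ (ix (P e)) (h • e))⁻¹ * σ (ix (P e)) e
  have hF : ∀ h e i, P e ∈ V i → F h e = (σ i (h • e))⁻¹ * σ i e := by
    intro h e i hi
    have a1 := h2 (ix (P e)) i e ⟨hix _, hi⟩
    have a2 := h2 (ix (P e)) i (h • e) ⟨by
      show P (h • e) ∈ V _
      rw [g.inv]; exact hix _, by
      show P (h • e) ∈ V _
      rw [g.inv]; exact hi⟩
    show (σ (ix (P e)) (h • e))⁻¹ * σ (ix (P e)) e = _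
    rw [a1, a2, g.inv]
    group
  have hFc : ∀ h e e', F h e = F h e' := by
    intro h
    have hlc : IsLocallyConstant (F h) := by
      rw [IsLocallyConstant.iff_eventually_eq]
      intro e
      have hi := hix (P e)
      have b1 := h1 _ e hi
      have b2 := (g.cont h).continuousAt.eventually (h1 (ix (P e)) (h • e) (by
        show P (h • e) ∈ V _
        rw [g.inv]; exact hi))
      have b3 := hP.continuousAt.eventually ((hV (ix (P e))).mem_nhds hi)
      filter_upwards [b1, b2, b3] with e' c1 c2 c3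
      rw [hF h e' _ c3, c1, c2]
    exact fun e e' => hlc.apply_eq_of_preconnectedSpace e e'
  obtain ⟨e₀⟩ : Nonempty U := inferInstance
  have key : ∀ i (h : H) e, P e ∈ V i → σ i (h • e) = σ i e * (F h e₀)⁻¹ := by
    intro i h e hi
    rw [hFc h e₀ e, hF h e i hi]
    group
  refine ⟨σ, MonoidHom.mk' (fun h => F h e₀) fun h h' => ?_, fun i e he => h1 i e he,
    fun i j e hi hj => h2 i j e ⟨hi, hj⟩, key⟩
  have hi := hix (P e₀)
  have a1 := key _ (h * h') e₀ hi
  have a2 := key (ix (P e₀)) h (h' • e₀) (by rw [g.inv]; exact hi)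
  rw [key _ h' e₀ hi, ← mul_smul, a1, mul_assoc, ← mul_inv_rev] at a2
  exact inv_injective (mul_left_cancel a2)

/-- If `H` has no homomorphism to `A`, all the cocycles are coboundaries. -/
theorem hasSec [TopologicalSpace N] (g : Quo H P) (hU : SC U) {A : Type} [Group A]
    (hA : ∀ Φ : H →* A, Φ = 1) : HasSec N A := by
  intro ι V hV cov T hloc hself hco
  obtain ⟨σ, Φ, h1, h2, h3⟩ := g.cech hU V hV cov T hloc hself hco
  rw [hA Φ] at h3
  choose s hs using g.surj
  refine ⟨fun i b => σ i (s b), fun i b hb => ?_, fun i j b hb => ?_⟩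
  · have hb' : P (s b) ∈ V i := by rwa [hs]
    have a1 := (h1 i (s b) hb').and
      (g.loc.continuous.continuousAt.eventually ((hV i).mem_nhds hb'))
    have a2 := g.loc.isOpenMap.image_mem_nhds a1
    rw [hs] at a2
    filter_upwards [a2] with b' hb'
    obtain ⟨e', ⟨c1, c2⟩, rfl⟩ := hb'
    obtain ⟨h, hh⟩ := g.orb e' (s (P e')) (hs _).symm
    rw [← hh, h3 i h e' c2, c1]
    simp
  · have := h2 i j (s b) (by rw [hs]; exact hb.1) (by rw [hs]; exact hb.2)
    rwa [hs] at this

/-- **The universal cocycle.** -/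
theorem exists_univ [MetricSpace N] [CompactSpace N] [LocallyConnectedSpace N]
    (g : Quo H P) (hU : SC U) : ∃ (c : N → N → H) (r : ℝ) (s : N → U) (K : Set U), Univ c r ∧
      {h | ∃ a b, dist a b < r ∧ c a b = h}.Finite ∧
      Subgroup.closure {h | ∃ a b, dist a b < r ∧ c a b = h} = ⊤ ∧ (∀ a, P (s a) = a) ∧
      (∀ a, ContinuousOn (fun b => c a b • s b) (ball a r)) ∧ IsCompact K ∧ ∀ a, s a ∈ K := by
  have hP := g.loc.continuous
  haveI := hU.conn
  haveI := g.t2
  choose s₀ hs₀ using g.surj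
  choose φ hφ hφ' using g.loc
  have hC : ∀ x : N, ∃ C : Set N, IsCompact C ∧ x ∈ interior C ∧ C ⊆ (φ (s₀ x)).target :=
    fun x => exists_compact_subset (φ (s₀ x)).open_target (by
      have := (φ (s₀ x)).map_source (hφ (s₀ x))
      rwa [← hφ', hs₀] at this)
  choose C hC1 hC2 hC3 using hC
  obtain ⟨T, -, hT⟩ := isCompact_univ.elim_nhds_subcover (fun x : N => interior (C x))
    fun x _ => isOpen_interior.mem_nhds (hC2 x)
  obtain ⟨ρ, hρ, hL⟩ := lebesgue_number_lemma_of_metric (s := (univ : Set N)) isCompact_univ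
    (c := fun x : T => interior (C x)) (fun x => isOpen_interior)
    (fun x _ => by
      obtain ⟨y, hy, hy'⟩ := mem_iUnion₂.1 (hT (mem_univ x))
      exact mem_iUnion.2 ⟨⟨y, hy⟩, hy'⟩)
  choose ix' hix' using fun a => hL a (mem_univ a)
  let ix : N → N := fun a => ix' a
  have hix : ∀ a, ball a ρ ⊆ (φ (s₀ (ix a))).target := fun a =>
    ((hix' a).trans interior_subset).trans (hC3 _)
  let K : Set U := ⋃ x ∈ T, (φ (s₀ x)).symm '' C x
  have hK : IsCompact K := T.isCompact_biUnion fun x _ =>
    (hC1 x).image_of_continuousOn ((φ (s₀ x)).continuousOn_symm.mono (hC3 x))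
  let sec : N → N → U := fun a => (φ (s₀ (ix a))).symm
  have hsc : ∀ a, ContinuousOn (sec a) (ball a ρ) := fun a =>
    (φ (s₀ (ix a))).continuousOn_symm.mono (hix a)
  have hsP : ∀ a, ∀ b ∈ ball a ρ, P (sec a b) = b := fun a b hb => by
    have := (φ (s₀ (ix a))).right_inv (hix a hb)
    rwa [← hφ'] at this
  have hss : ∀ a, P (sec a a) = a := fun a => hsP a a (mem_ball_self hρ)
  have hex : ∀ a b, ∃ h : H, dist a b < ρ → h • sec b b = sec a b := by
    intro a b
    by_cases hab : dist a b < ρ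
    · obtain ⟨h, hh⟩ := g.orb (sec b b) (sec a b) (by
        rw [hss, hsP a b (by rwa [mem_ball, dist_comm])])
      exact ⟨h, fun _ => hh⟩
    · exact ⟨1, fun h => absurd h hab⟩
  choose c hc using hex
  have hself : ∀ a, c a a = 1 := fun a => g.free _ _ (hc a a (by rwa [dist_self]))
  have hinj : IsLocallyInjective P := g.loc.isLocallyInjective
  have hsep : IsSeparatedMap P := T2Space.isSeparatedMap _
  obtain ⟨r, hr, hW⟩ := exists_unif_conn (N := N) (ε := ρ / 2) (by positivity)
  have hsK : ∀ a, ∀ b ∈ ball a ρ, sec a b ∈ K := fun a b hb =>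
    mem_iUnion₂.2 ⟨ix a, (ix' a).2, b, interior_subset (hix' a hb), rfl⟩
  have hρ2 : min r (ρ / 2) ≤ ρ := (min_le_right _ _).trans (by linarith)
  have hex : ∀ e : U, ∃ h : H, h • sec (P e) (P e) = e := fun e => g.orb _ _ (hss _)
  choose hh hhe using hex
  have hev : ∀ ε > 0, ∀ e : U, ∀ᶠ e' in 𝓝 e, dist (P e) (P e') < min ρ ε ∧
      hh e' = hh e * c (P e) (P e') := by
    intro ε hε e
    have b1 : ∀ᶠ e' in 𝓝 e, P e' ∈ ball (P e) (min ρ ε) :=
      hP.continuousAt.eventually (ball_mem_nhds _ (lt_min hρ hε))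
    obtain ⟨O, hO, heO, hOi⟩ := hinj e
    have b2 : ContinuousAt (fun e' => hh e • sec (P e) (P e')) e :=
      (g.cont _).continuousAt.comp
        (((hsc (P e)).continuousAt (ball_mem_nhds _ hρ)).comp hP.continuousAt)
    have b3 : ∀ᶠ e' in 𝓝 e, hh e • sec (P e) (P e') ∈ O :=
      b2.eventually (by beta_reduce; rw [hhe]; exact hO.mem_nhds heO)
    filter_upwards [b1, b3, hO.mem_nhds heO] with e' c1 c2 c3
    have c4 : dist (P e) (P e') < min ρ ε := by rwa [mem_ball, dist_comm] at c1
    have c5 : hh e • sec (P e) (P e') = e' := hOi c2 c3 (by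
      rw [g.inv, hsP _ _ (ball_subset_ball (min_le_left _ _) c1)])
    rw [← hc _ _ (c4.trans_le (min_le_left _ _)), ← mul_smul] at c5
    exact ⟨c4, (g.cancel (c5.trans (hhe e').symm)).symm⟩
  obtain ⟨e₀⟩ : Nonempty U := inferInstance
  have d2 : ∀ h : H, hh (h • e₀) = h * hh e₀ := by
    intro h
    have d3 := hhe (h • e₀)
    rw [g.inv] at d3
    refine g.cancel (x := sec (P e₀) (P e₀)) ?_
    rw [d3, mul_smul, hhe]
  refine ⟨c, min r (ρ / 2), fun a => sec a a, K, ⟨lt_min hr (by positivity), hself,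
    fun a b d hab had hbd => ?_, fun ε hε => ?_, fun A _ χ Θ ε hε hχ => ?_⟩, ?_, ?_, hss,
    fun a => ?_, hK, fun a => hsK a a (mem_ball_self hρ)⟩
  · have e1 := hab.trans_le (min_le_right _ _)
    have e2 := had.trans_le (min_le_right _ _)
    have e3 := hbd.trans_le (min_le_right _ _)
    obtain ⟨W, w1, w2, w3, w4⟩ := hW b d (hbd.trans_le (min_le_left _ _))
    have w5 : W ⊆ ball b ρ := w4.trans (ball_subset_ball (by linarith))
    have w6 : W ⊆ ball a ρ := fun y hy => by
      have := w4 hy
      rw [mem_ball] at this ⊢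
      linarith [dist_triangle y b a, dist_comm a b]
    have := hsep.eqOn_of_comp_eqOn hinj w1 (g₁ := fun y => c a b • sec b y) (g₂ := sec a)
      ((g.cont _).comp_continuousOn ((hsc b).mono w5)) ((hsc a).mono w6)
      (fun y hy => by
        show P (c a b • sec b y) = P (sec a y)
        rw [g.inv, hsP b y (w5 hy), hsP a y (w6 hy)]) w2 (hc a b (by linarith)) w3
    have h1 : c a b • sec b d = sec a d := this
    rw [← hc b d (by linarith), ← hc a d (by linarith), ← mul_smul] at h1
    exact g.cancel h1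
  · obtain ⟨δ, hδ, hW⟩ := exists_unif_conn (N := N) (ε := min ρ (ε / 2))
      (lt_min hρ (by positivity))
    refine ⟨δ, hδ, fun A _ f hf => ?_⟩
    have hd : ∀ {x y b : N}, b ∈ ball x (ε / 2) → b ∈ ball y (ε / 2) → dist x y < ε := by
      intro x y b h1 h2
      rw [mem_ball] at h1 h2
      linarith [dist_triangle_left x y b]
    obtain ⟨σ, Φ, h1, h2, h3⟩ := g.cech hU (fun x : N => ball x (ε / 2)) (fun _ => isOpen_ball)
      (fun b => ⟨b, mem_ball_self (by positivity)⟩) (fun x y _ => f x y)
      (fun _ _ _ _ => Eventually.of_forall fun _ => rfl)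
      (fun x b hb => by
        have := hf x x x (by rwa [dist_self]) (by rwa [dist_self]) (by rwa [dist_self])
        exact mul_eq_left.1 this)
      (fun x y z b hb => hf x y z (hd hb.1.1 hb.1.2) (hd hb.1.1 hb.2) (hd hb.1.2 hb.2))
    refine ⟨Φ, fun a => σ a (sec a a), fun a b hab => ?_⟩
    obtain ⟨W, w1, w2, w3, w4⟩ := hW a b hab
    have w5 : W ⊆ ball a ρ := w4.trans (ball_subset_ball (min_le_left _ _))
    have w6 : W ⊆ ball a (ε / 2) := w4.trans (ball_subset_ball (min_le_right _ _))
    have k1 : σ a (sec a a) = σ a (sec a b) := by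
      letI : TopologicalSpace A := ⊥
      haveI : DiscreteTopology A := ⟨rfl⟩
      refine w1.constant (f := fun y => σ a (sec a y)) (fun y hy => ?_) w2 w3
      have a1 := h1 a (sec a y) (by rw [hsP a y (w5 hy)]; exact w6 hy)
      have a2 : ContinuousAt (σ a) (sec a y) :=
        continuousAt_const.congr (a1.mono fun e he => he.symm)
      exact a2.comp_continuousWithinAt ((hsc a).mono w5 y hy)
    have hb1 : dist a b < ρ := by
      have := w5 w3
      rwa [mem_ball, dist_comm] at this
    have k2 := h3 a (c a b) (sec b b) (by rw [hss]; exact w6 w3)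
    have k3 := h2 a b (sec b b) (by rw [hss]; exact w6 w3)
      (by rw [hss]; exact mem_ball_self (by positivity))
    rw [hc a b hb1, ← k1, k3] at k2
    beta_reduce
    rw [k2]
    group
  · have hlc : IsLocallyConstant fun e : U => χ (hh e) * Θ (P e) := by
      rw [IsLocallyConstant.iff_eventually_eq]
      intro e
      filter_upwards [hev ε hε e] with e' ⟨c4, c6⟩
      rw [c6, map_mul, hχ _ _ (c4.trans_le (min_le_right _ _))]
      group
    ext h
    have d1 := hlc.apply_eq_of_preconnectedSpace (h • e₀) e₀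
    beta_reduce at d1
    rw [d2, g.inv, map_mul, mul_assoc] at d1
    exact mul_eq_right.1 d1
  · refine (g.proper hK hK).subset ?_
    rintro _ ⟨a, b, hab, rfl⟩
    have h1 := hab.trans_le hρ2
    refine ⟨sec b b, hsK b b (mem_ball_self hρ), ?_⟩
    rw [hc a b h1]
    exact hsK a b (by rwa [mem_ball, dist_comm])
  · set S := Subgroup.closure {h | ∃ a b, dist a b < min r (ρ / 2) ∧ c a b = h} with hS
    have hlc : IsLocallyConstant fun e : U => (QuotientGroup.mk (hh e) : H ⧸ S) := by
      rw [IsLocallyConstant.iff_eventually_eq]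
      intro e
      filter_upwards [hev _ (lt_min hr (half_pos hρ)) e] with e' ⟨c4, c6⟩
      rw [c6, eq_comm, QuotientGroup.eq, inv_mul_cancel_left]
      exact Subgroup.subset_closure ⟨_, _, c4.trans_le (min_le_right _ _), rfl⟩
    rw [eq_top_iff]
    intro h _
    have d1 := hlc.apply_eq_of_preconnectedSpace e₀ ((hh e₀ * h * (hh e₀)⁻¹) • e₀)
    beta_reduce at d1
    rw [d2, QuotientGroup.eq] at d1
    simpa [mul_assoc] using d1
  · refine ((hsc a).mono (ball_subset_ball hρ2)).congr fun b hb => hc a b ?_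
    have := ball_subset_ball hρ2 hb
    rwa [mem_ball, dist_comm] at this

theorem fg [MetricSpace N] [CompactSpace N] [LocallyConnectedSpace N]
    (g : Quo H P) (hU : SC U) : Group.FG H := by
  obtain ⟨c, r, s, K, -, h1, h2, -⟩ := g.exists_univ hU
  exact Group.fg_iff.2 ⟨_, h2, h1⟩

end Quo

/-- A closed manifold is metrizable. -/
theorem metrizable (N : Type) [TopologicalSpace N] [T2Space N] [CompactSpace N]
    [ChartedSpace E3 N] : TopologicalSpace.MetrizableSpace N := by
  haveI : SecondCountableTopology N := ChartedSpace.secondCountable_of_sigmaCompact E3 N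
  exact TopologicalSpace.metrizableSpace_of_t3_secondCountable N

theorem InC.fg {G : Type} [Group G] {N : Type} [TopologicalSpace N] [T2Space N] [CompactSpace N]
    [ChartedSpace E3 N] (h : InC G N) : Group.FG G := by
  obtain ⟨X, _, _, P, h1, h2⟩ := h
  haveI := metrizable N
  letI := TopologicalSpace.metrizableSpaceMetric N
  haveI := ChartedSpace.locallyConnectedSpace E3 N
  exact h2.fg h1

end Vale.Agent.P216T
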