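import Vale.Agent.P216T.Rep
import Vale.Agent.P216T.Univ
import Vale.Agent.P216TK.Uc
import Mathlib.Analysis.Complex.Tietze
import Mathlib.SetTheory.Cardinal.Free

/-!
# P216T: walls and replacements from parametrisations
-/

set_option linter.all false

open Set Topology Filter

noncomputable section

namespace Vale.Agent.P216T

theorem desc_cont {Y Z B : Type} [TopologicalSpace Y] [TopologicalSpace Z] [TopologicalSpace B]
    {S : Set Y} {π : Y → Z} (hS : IsOpen S) (ho : ∀ W ⊆ S, IsOpen W → IsOpen (π '' W)) {u : Z → B}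
    (hu : ContinuousOn (fun y => u (π y)) S) : ContinuousOn u (π '' S) := by
  rw [continuousOn_open_iff (ho S subset_rfl hS)]
  intro t ht
  convert ho _ inter_subset_left (hu.isOpen_inter_preimage hS ht) using 1
  ext z
  constructor
  · rintro ⟨⟨y, hy, rfl⟩, k⟩
    exact ⟨y, ⟨hy, k⟩, rfl⟩
  · rintro ⟨y, ⟨hy, k⟩, rfl⟩
    exact ⟨⟨y, hy, rfl⟩, k⟩

theorem sc_convex {V : Type} [NormedAddCommGroup V] [NormedSpace ℝ V] {K : Set V}
    (hK : Convex ℝ K) (hne : K.Nonempty) : SC K := by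
  haveI := hK.contractibleSpace hne
  haveI := hK.locallyPathConnectedSpace
  exact SC.of_simplyConnected K

variable {G : Type} [Group G] {X N : Type} [TopologicalSpace X] [TopologicalSpace N]
  [MulAction G X] {P : X → N} {h : N → ℝ} {T : Set N} {D : Set X} {a b : ℝ} {C : Subgroup G}
  {A A' : Set X}

theorem Quo.env [T2Space N] [CompactSpace N] [ChartedSpace E3 N] (q : Quo G P) (hX : SC X) :
    LocallyCompactSpace X ∧ PathConnectedSpace X ∧ LocallyConnectedSpace X ∧ NormalSpace X ∧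
      Group.FG G := by
  haveI := hX.conn
  haveI := q.t2
  haveI := ChartedSpace.locallyCompactSpace E3 N
  haveI := ChartedSpace.locallyPathConnectedSpace E3 N
  letI := P216TK.lhCharts q.loc
  haveI := ChartedSpace.locallyCompactSpace N X
  haveI := ChartedSpace.locallyPathConnectedSpace N X
  haveI : Group.FG G := InC.fg ⟨X, _, _, P, hX, q⟩
  obtain ⟨α, _, f, hf⟩ := Group.fg_iff_exists_freeGroup_hom_surjective_finite.1 this
  haveI : Countable G := hf.countable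
  obtain ⟨K, hK, hK'⟩ := q.exists_compact
  haveI : SigmaCompactSpace X := ⟨by
    have : (univ : Set X) = ⋃ g : G, (fun x => g • x) '' K := (eq_univ_of_forall fun x => by
      obtain ⟨g, hg⟩ := hK' x
      exact mem_iUnion.2 ⟨g⁻¹, _, hg, inv_smul_smul g x⟩).symm
    rw [this]
    exact isSigmaCompact_iUnion_of_isCompact _ fun g => hK.image (q.cont g)⟩
  exact ⟨inferInstance, PathConnectedSpace.of_locallyPathConnectedSpace, inferInstance,
    inferInstance, inferInstance⟩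

/-- A wall from a lifted parametrisation. -/
theorem wall_of_model (q : Quo G P) {Y : Type} [TopologicalSpace Y] {S : Set Y} {η : Y → ℝ}
    {F : Y → X} (hab : a < b) (oS : IsOpen S) (cS : IsPreconnected S) (cη : ContinuousOn η S)
    (cF : ContinuousOn F S) (oψ : ∀ W ⊆ S, IsOpen W → IsOpen ((fun p => P (F p)) '' W))
    (eη : ∀ p ∈ S, ∀ p' ∈ S, P (F p) = P (F p') → η p = η p')
    (cpt : ∀ c c', a < c → c' < b → ∃ K ⊆ S, IsCompact K ∧ (∀ p ∈ K, c ≤ η p ∧ η p ≤ c') ∧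
      ∀ p ∈ S, c ≤ η p → η p ≤ c' → ∃ p' ∈ K, P (F p') = P (F p))
    (ne : ∀ c, a < c → c < b → ∃ p ∈ S, η p = c)
    (st : ∀ g ∈ C, ∀ p ∈ S, ∃ p' ∈ S, F p' = g • F p)
    (dj : ∀ g : G, ∀ p ∈ S, ∀ p' ∈ S, g • F p = F p' → g ∈ C) :
    ∃ h : N → ℝ, (∀ p ∈ S, h (P (F p)) = η p) ∧
      Wall P h ((fun p => P (F p)) '' S) (F '' S) a b C := by
  classical
  let h : N → ℝ := fun y => if k : ∃ p ∈ S, P (F p) = y then η k.choose else 0
  have e : ∀ p ∈ S, h (P (F p)) = η p := fun p hp => by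
    have k : ∃ p' ∈ S, P (F p') = P (F p) := ⟨p, hp, rfl⟩
    exact (dif_pos k).trans (eη _ k.choose_spec.1 p hp k.choose_spec.2)
  refine ⟨h, e, q, hab, oψ S subset_rfl oS, desc_cont oS oψ (cη.congr e), fun c c' h1 h2 => ?_,
    open_of_lift q.loc cF oψ subset_rfl oS, image_image _ _ _, ?_, ?_, cS.image _ cF,
    fun c h1 h2 => ?_⟩
  · obtain ⟨K, k1, k2, k3, k4⟩ := cpt c c' h1 h2
    convert k2.image_of_continuousOn (q.continuous.comp_continuousOn (cF.mono k1)) using 1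
    ext y
    constructor
    · rintro ⟨⟨p, hp, rfl⟩, k5, k6⟩
      rw [e p hp] at k5 k6
      exact k4 p hp k5 k6
    · rintro ⟨p, hp, rfl⟩
      refine ⟨⟨p, k1 hp, rfl⟩, ?_⟩
      show c ≤ h (P (F p)) ∧ h (P (F p)) ≤ c'
      rw [e p (k1 hp)]
      exact k3 p hp
  · rintro g hg _ ⟨p, hp, rfl⟩
    exact st g hg p hp
  · rintro g _ ⟨p, hp, rfl⟩ ⟨p', hp', k⟩
    exact dj g p hp p' hp' k.symm
  · obtain ⟨p, hp, k⟩ := ne c h1 h2
    exact ⟨_, ⟨p, hp, rfl⟩, (e p hp).trans k⟩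

/-- Extension over the lower side. -/
theorem Wall.ext [T2Space N] [NormalSpace X] (W : Wall P h T D a b C)
    (S : Sides (fun x => h (P x)) D a b A A') {c : ℝ} (h1 : a < c) (h2 : c < b) {Z : Type}
    [TopologicalSpace Z] [TietzeExtension.{0, 0} Z] {f : X → Z}
    (hf : ContinuousOn f {x | x ∈ D ∧ c ≤ h (P x)}) :
    ∃ u : X → Z, (∀ x ∈ A' ∪ D, ContinuousAt u x) ∧ ∀ x ∈ D, c ≤ h (P x) → u x = f x := by
  classical
  obtain ⟨g, hg⟩ := ContinuousMap.exists_restrict_eq (W.closed_band h1 h2)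
    ⟨fun x => f x, hf.comp_continuous continuous_subtype_val fun x => ⟨x.2.1, x.2.2.1⟩⟩
  have hg' : ∀ x ∈ D, c = h (P x) → f x = g x := fun x hx e =>
    (DFunLike.congr_fun hg ⟨x, hx, e.le, e.ge⟩).symm
  refine ⟨fun x => if x ∈ D ∧ c ≤ h (P x) then f x else g x, fun x hx => ?_,
    fun x hx k => if_pos ⟨hx, k⟩⟩
  rcases hx with hx | hx
  · refine g.continuous.continuousAt.congr ?_
    filter_upwards [(S.oA' c h1 h2).mem_nhds (.inl hx)] with y hy
    exact (if_neg fun k => hy.elim (fun k' => S.d₃ y k' k.1) fun k' => not_lt.2 k.2 k'.2).symm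
  · refine ContinuousOn.continuousAt ?_ (W.oD.mem_nhds hx)
    rw [continuousOn_iff_continuous_restrict]
    refine (continuous_if_le (f := fun _ : D => c) (g := fun x : D => h (P x))
      (f' := fun x : D => f x) (g' := fun x : D => g x) continuous_const W.hcD.restrict
      (hf.comp continuous_subtype_val.continuousOn fun x k => ⟨x.2, k⟩)
      (g.continuous.comp continuous_subtype_val).continuousOn fun x => hg' x x.2).congr fun x => ?_
    show _ = if (x : X) ∈ D ∧ c ≤ h (P x) then f x else g x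
    simp only [x.2, true_and]

theorem Wall.replace' [T2Space N] [LocallyConnectedSpace X] (W : Wall P h T D a b C) (hX : SC X)
    (S : Sides (fun x => h (P x)) D a b A A')
    (hA : ∀ g : G, ∀ x ∈ A' ∪ D, g • x ∈ A' ∪ D → g ∈ C) {c : ℝ} (h1 : a < c) (h2 : c < b)
    {U V : Set N} (hU : SepN h T c U V) {N' Λ Q : Type} [TopologicalSpace N'] [Group Λ]
    [TopologicalSpace Q] [MulAction Λ Q] {j : N → N'} (hj : OE j U) {Φ : Q → N'} (hΦ : QuoO Λ Φ)
    (hQ : SC Q) (m : Λ →* G) (cov : ∀ y, y ∈ j '' U ∨ y ∈ range Φ) {Y : Type} [TopologicalSpace Y]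
    {R : Set Y} {F : Y → X} {κ : Y → Q} (oR : IsOpen R) (cR : IsPreconnected R) (ne : R.Nonempty)
    (cF : ContinuousOn F R) (oψ : ∀ W ⊆ R, IsOpen W → IsOpen ((fun p => P (F p)) '' W))
    (cκ : ContinuousOn κ R) (mU : ∀ p ∈ R, P (F p) ∈ U) (eq : ∀ p ∈ R, Φ (κ p) = j (P (F p)))
    (onto : ∀ z, Φ z ∈ j '' U → z ∈ κ '' R) (fib : ∀ p ∈ R, ∀ p' ∈ R, κ p = κ p' → F p = F p')
    (eqv : ∀ (l : Λ), ∀ p ∈ R, ∃ p' ∈ R, κ p' = l • κ p ∧ F p' = m l • F p) {u : X → Q}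
    (hu : ∀ x ∈ A' ∪ D, ∃ v : X → Q, ContinuousAt v x ∧
      ∀ᶠ y in 𝓝 x, ∃ l : Λ, m l = 1 ∧ u y = l • v y)
    (hu' : ∀ x ∈ D, c < h (P x) → ∃ p ∈ R, F p = x ∧ u x = κ p) : InC G N' := by
  haveI : Nonempty Y := ⟨ne.some⟩
  have e : Φ ⁻¹' (j '' U) = κ '' R := by
    ext z
    refine ⟨onto z, ?_⟩
    rintro ⟨p, hp, rfl⟩
    exact ⟨_, mU p hp, (eq p hp).symm⟩
  let θ : Q → X := fun z => F (Function.invFunOn κ R z)
  have eθ : ∀ p ∈ R, θ (κ p) = F p := fun p hp =>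
    fib _ (Function.invFunOn_mem ⟨p, hp, rfl⟩) p hp (Function.invFunOn_eq ⟨p, hp, rfl⟩)
  have oκ : ∀ W ⊆ R, IsOpen W → IsOpen (κ '' W) := fun W' k1 k2 =>
    open_of_lift hΦ.loc cκ (fun W k3 k4 => by
      rw [image_congr (g := fun p => j (P (F p))) fun p hp => eq p (k3 hp),
        ← image_image j fun p => P (F p)]
      exact hj.img _ (by rintro _ ⟨p, hp, rfl⟩; exact mU p (k3 hp)) (oψ W k3 k4)) k1 k2
  refine W.replace hX S hA h1 h2 hU hj hΦ hQ m cov (θ := θ)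
    (e ▸ desc_cont oR oκ (cF.congr eθ)) (fun z hz => ?_) (fun l z hz => ?_) (e ▸ cR.image _ cκ)
    (e ▸ ne.image _) hu fun x hx k => ?_
  · obtain ⟨p, hp, rfl⟩ := onto z hz
    rw [eθ p hp]
    exact ⟨mU p hp, (eq p hp).symm⟩
  · obtain ⟨p, hp, rfl⟩ := onto z hz
    obtain ⟨p', hp', k1, k2⟩ := eqv l p hp
    rw [← k1, eθ p hp, eθ p' hp', k2]
  · obtain ⟨p, hp, rfl, k1⟩ := hu' x hx k
    rw [k1, eθ p hp]
    exact ⟨⟨_, mU p hp, (eq p hp).symm⟩, rfl⟩

end Vale.Agent.P216T
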