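import Vale.Agent.P216T.Mod
import Vale.Agent.P216.H347.SCS

/-!
# P216T: surgery along spheres
-/

set_option linter.all false

open Set Topology Filter Metric

noncomputable section

namespace Vale.Agent.P216T

theorem isOpen_ann (a b : ℝ) : IsOpen (ann a b) :=
  (isOpen_lt continuous_const continuous_norm).inter (isOpen_lt continuous_norm continuous_const)

theorem preconn_ann {a : ℝ} (ha : 0 ≤ a) (b : ℝ) : IsPreconnected (ann a b) := by
  have : ann a b = (fun p : ℝ × E3 => p.1 • p.2) '' Ioo a b ×ˢ sphere 0 1 := by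
    ext x
    refine ⟨fun h => ⟨(‖x‖, ‖x‖⁻¹ • x), ⟨h, ?_⟩, smul_inv_smul₀ (ha.trans_lt h.1).ne' x⟩, ?_⟩
    · simp [norm_smul, inv_mul_cancel₀ (ha.trans_lt h.1).ne']
    · rintro ⟨⟨r, u⟩, ⟨h1, h2⟩, rfl⟩
      have : ‖r • u‖ = r := by
        rw [norm_smul, mem_sphere_zero_iff_norm.1 h2, mul_one, Real.norm_of_nonneg (ha.trans h1.1.le)]
      exact ⟨this.symm ▸ h1.1, this.symm ▸ h1.2⟩
  rw [this]
  refine (isPreconnected_Ioo.prod (isConnected_sphere ?_ 0 zero_le_one).2).image _ (by fun_prop)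
  rw [← Module.finrank_eq_rank, finrank_euclideanSpace_fin]
  exact_mod_cast (by norm_num : 1 < 3)

theorem sc_sphere : SC (sphere (0 : E3) 1) := by
  haveI := P216.SCS.simplyConnected_sphere 2 le_rfl
  haveI : Fact (Module.finrank ℝ E3 = 2 + 1) := ⟨finrank_euclideanSpace_fin⟩
  haveI := ChartedSpace.locallyPathConnectedSpace (EuclideanSpace ℝ (Fin 2)) (sphere (0 : E3) 1)
  exact SC.of_simplyConnected _

theorem lift_ann {E B : Type} [TopologicalSpace E] [TopologicalSpace B] {p : E → B}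
    (hp : IsCoveringMap p) (hs : Function.Surjective p) {a b : ℝ} (ha : 0 < a) (hab : a < b)
    {f : E3 → B} (hf : ContinuousOn f (ann a b)) :
    ∃ F : E3 → E, ContinuousOn F (ann a b) ∧ ∀ x ∈ ann a b, p (F x) = f x := by
  classical
  obtain ⟨c, h1, h2⟩ := exists_between hab
  have hc : 0 < c := ha.trans h1
  have n1 : ∀ v : sphere (0 : E3) 1, ‖c • (v : E3)‖ = c := fun v => by
    rw [norm_smul, norm_eq_of_mem_sphere, mul_one, Real.norm_of_nonneg hc.le]
  obtain ⟨v₀⟩ := sc_sphere.conn.toNonempty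
  obtain ⟨e₀, he₀⟩ := hs (f (c • (v₀ : E3)))
  obtain ⟨L, l1, -, l2⟩ := sc_sphere.lift E B p hp (fun v => f (c • (v : E3)))
    (hf.comp_continuous (by fun_prop) fun v => by constructor <;> rwa [n1]) v₀ e₀ he₀
  have n2 : ∀ x ∈ sphere (0 : E3) c, c⁻¹ • x ∈ sphere (0 : E3) 1 := fun x hx => by
    rw [mem_sphere_zero_iff_norm] at hx ⊢
    rw [norm_smul, hx, norm_inv, Real.norm_of_nonneg hc.le, inv_mul_cancel₀ hc.ne']
  have n3 : ∀ t ∈ Icc (0 : ℝ) 1, ∀ x ∈ ann a b,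
      ‖((1 - t) * c / ‖x‖ + t) • x‖ = (1 - t) * c + t * ‖x‖ := fun t ht x hx => by
    have h3 : 0 < ‖x‖ := ha.trans hx.1
    have h4 := sub_nonneg.2 ht.2
    have h5 := ht.1
    rw [norm_smul, Real.norm_of_nonneg (by positivity), add_mul, div_mul_cancel₀ _ h3.ne']
  obtain ⟨F, f1, f2, -⟩ := lift_deform hp (S := sphere 0 c) hf
    (fun q => ((1 - q.1) * c / ‖q.2‖ + q.1) • q.2)
    (((ContinuousOn.div (by fun_prop) (by fun_prop) fun q hq => (ha.trans hq.2.1).ne').add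
      continuousOn_fst).smul continuousOn_snd)
    (fun t ht x hx => by
      have := n3 t ht x hx
      have h4 := sub_nonneg.2 ht.2
      constructor <;> beta_reduce <;> rw [this]
      · rcases ht.1.eq_or_lt with rfl | h5
        · simpa using h1
        · nlinarith [mul_lt_mul_of_pos_left hx.1 h5, mul_le_mul_of_nonneg_left h1.le h4]
      · rcases ht.1.eq_or_lt with rfl | h5
        · simpa using h2
        · nlinarith [mul_lt_mul_of_pos_left hx.2 h5, mul_le_mul_of_nonneg_left h2.le h4])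
    (fun x hx => by
      rw [mem_sphere_zero_iff_norm]
      simpa using n3 0 ⟨le_rfl, zero_le_one⟩ x hx)
    (fun x _ => by simp)
    (fun t _ x hx => by
      rw [mem_sphere_zero_iff_norm] at hx
      simp [hx, mul_div_assoc, div_self hc.ne'])
    (F₀ := fun x => if k : x ∈ sphere (0 : E3) c then L ⟨_, n2 x k⟩ else e₀)
    (by
      rw [continuousOn_iff_continuous_restrict]
      exact (l1.comp ((continuous_subtype_val.const_smul c⁻¹).subtype_mk fun x => n2 x x.2)).congr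
        fun x => (show (if k : x.1 ∈ sphere (0 : E3) c then L ⟨_, n2 x k⟩ else e₀) = _ from
          dif_pos x.2).symm)
    (fun x hx => by
      beta_reduce
      rw [dif_pos hx, l2, smul_inv_smul₀ hc.ne'])
  exact ⟨F, f1, f2⟩

variable {G : Type} [Group G] {X N : Type} [TopologicalSpace X] [TopologicalSpace N]
  [MulAction G X] {P : X → N} {h : N → ℝ} {T : Set N} {D : Set X} {a b : ℝ} {C : Subgroup G}
  {A A' : Set X}

theorem Wall.keepS [T2Space N] [LocallyConnectedSpace X] [NormalSpace X] (W : Wall P h T D a b C)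
    (hX : SC X) (S : Sides (fun x => h (P x)) D a b A A')
    (hA : ∀ g : G, ∀ x ∈ A' ∪ D, g • x ∈ A' ∪ D → g ∈ C) {c : ℝ} (h1 : a < c) (h2 : c < b)
    {U V : Set N} (hU : SepN h T c U V) {φ : E3 → N} {F : E3 → X} {a₀ c₀ b₀ : ℝ} (k0 : 0 < a₀)
    (k1 : a₀ < c₀) (k2 : c₀ < b₀) (hφ : OE φ (ann a₀ b₀)) (cF : ContinuousOn F (ann a₀ b₀))
    (pF : ∀ x ∈ ann a₀ b₀, P (F x) = φ x) (hD : D = F '' ann a₀ b₀)
    (lv : ∀ x ∈ ann a₀ b₀, c < h (φ x) ↔ c₀ < ‖x‖) : KeepS G φ c₀ b₀ U := by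
  classical
  intro N' _ _ j β hj hβ e1 e2 e3
  have hb : 0 < b₀ := (k0.trans k1).trans k2
  haveI := Metric.instTietzeExtensionBall.{0, 0, 0} (𝕜 := ℝ) (E := E3) hb
  let κ : E3 → ball (0 : E3) b₀ := fun x =>
    if k : x ∈ ball (0 : E3) b₀ then ⟨x, k⟩ else ⟨0, mem_ball_self hb⟩
  have eκ : ∀ x ∈ ann a₀ b₀, (κ x : E3) = x := fun x hx => by
    simp only [κ, dif_pos (mem_ball_zero_iff.2 hx.2)]
  have cκ : ContinuousOn κ (ann a₀ b₀) := by
    rw [IsInducing.subtypeVal.continuousOn_iff]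
    exact continuousOn_id.congr eκ
  have sub : ann c₀ b₀ ⊆ ann a₀ b₀ := fun x hx => ⟨k1.trans hx.1, hx.2⟩
  have oψ : ∀ W ⊆ ann a₀ b₀, IsOpen W → IsOpen ((fun p => P (F p)) '' W) := fun W k3 k4 => by
    rw [image_congr (g := φ) fun x hx => pF x (k3 hx)]
    exact hφ.img W k3 k4
  have iF : InjOn F (ann a₀ b₀) := fun x hx y hy e =>
    hφ.inj hx hy (by rw [← pF x hx, ← pF y hy, e])
  have eσ : ∀ x ∈ ann a₀ b₀, Function.invFunOn F (ann a₀ b₀) (F x) = x := fun x hx =>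
    iF.leftInvOn_invFunOn hx
  obtain ⟨u, u1, u2⟩ := W.ext S h1 h2 (f := fun x => κ (Function.invFunOn F (ann a₀ b₀) x))
    (ContinuousOn.mono (by
      rw [hD]
      exact desc_cont (isOpen_ann _ _)
        (fun W' k3 k4 => open_of_lift W.quo.loc cF oψ k3 k4)
        (cκ.congr fun x hx => congrArg κ (eσ x hx))) fun x hx => hx.1)
  refine W.replace' hX S hA h1 h2 hU hj (Λ := (⊥ : Subgroup (Equiv.Perm (ball (0 : E3) b₀))))
    (Φ := fun q : ball (0 : E3) b₀ => β q) ⟨?_, fun g => ?_, fun g x => ?_, fun x y e => ?_,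
      fun g _ _ => Subsingleton.elim _ _⟩ (sc_convex (convex_ball 0 b₀) (nonempty_ball.2 hb)) 1
    (fun y => (e3 y).imp id fun ⟨x, hx, e⟩ => ⟨⟨x, hx⟩, e⟩) (R := ann c₀ b₀) (F := F) (κ := κ)
    (isOpen_ann _ _) (preconn_ann (k0.trans k1).le _) ?_ (cF.mono sub)
    (fun W k3 => oψ W (k3.trans sub)) (cκ.mono sub) (fun x hx => ?_) (fun x hx => ?_)
    (fun z hz => ?_) (fun x hx y hy e => ?_) (fun l x hx => ⟨x, hx, ?_, by simp⟩) (u := u)
    (fun x hx => ⟨u, u1 x hx, Eventually.of_forall fun y => ⟨1, rfl, (one_smul _ _).symm⟩⟩)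
    fun x hx k => ?_
  · exact loc_of hβ.cont.restrict (fun W hW => by
      have := hβ.img _ (Subtype.coe_image_subset _ W) (isOpen_ball.isOpenMap_subtype_val W hW)
      rwa [image_image] at this) fun x => ⟨univ, isOpen_univ, trivial, fun y _ z _ e =>
        Subtype.ext (hβ.inj y.2 z.2 e)⟩
  · rw [Subsingleton.elim g 1]
    simpa only [one_smul] using continuous_id'
  · rw [Subsingleton.elim g 1, one_smul]
  · exact ⟨1, (one_smul _ _).trans (Subtype.ext (hβ.inj x.2 y.2 e))⟩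
  · obtain ⟨r, r1, r2⟩ := exists_between k2
    obtain ⟨x, hx⟩ := exists_norm_eq E3 ((k0.trans k1).trans r1).le
    exact ⟨x, by constructor <;> rwa [hx]⟩
  · refine hU.mU _ (W.mem (hD ▸ mem_image_of_mem F (sub hx))) ?_
    rw [pF x (sub hx), lv x (sub hx)]
    exact hx.1
  · beta_reduce
    rw [eκ x (sub hx), e1 x hx, pF x (sub hx)]
  · obtain ⟨y, hy, e⟩ := hz
    have k3 : z.1 ∈ ann c₀ b₀ := ⟨not_le.1 fun k => e2 _ k y hy e.symm, mem_ball_zero_iff.1 z.2⟩
    exact ⟨z, k3, Subtype.ext (eκ _ (sub k3))⟩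
  · rw [← eκ x (sub hx), ← eκ y (sub hy), e]
  · rw [Subsingleton.elim l 1, one_smul]
  · obtain ⟨p, hp, rfl⟩ : x ∈ F '' ann a₀ b₀ := hD ▸ hx
    refine ⟨p, ⟨(lv p hp).1 (pF p hp ▸ k), hp.2⟩, rfl, ?_⟩
    rw [u2 _ hx k.le, eσ p hp]

theorem norm_inv3 (x : E3) : ‖inv3 x‖ = ‖x‖⁻¹ := by
  by_cases hx : ‖x‖ = 0
  · simp [inv3, hx]
  · rw [inv3, norm_smul, norm_inv, norm_pow, norm_norm]
    field_simp

theorem inv3_inv3 (x : E3) : inv3 (inv3 x) = x := by
  by_cases hx : x = 0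
  · simp [inv3, hx]
  · have := norm_ne_zero_iff.2 hx
    rw [inv3, norm_inv3, inv3, smul_smul, inv_pow, inv_inv, mul_inv_cancel₀ (pow_ne_zero _ this),
      one_smul]

theorem inv3_mem (ha : 0 < a) (hab : a < b) {x : E3} : inv3 x ∈ ann a b ↔ x ∈ ann b⁻¹ a⁻¹ := by
  have hb := ha.trans hab
  simp only [ann, mem_setOf_eq, norm_inv3]
  constructor
  · rintro ⟨h1, h2⟩
    have h3 : 0 < ‖x‖ := inv_pos.1 (ha.trans h1)
    exact ⟨inv_lt_of_inv_lt₀ h3 h2, (lt_inv_comm₀ ha h3).1 h1⟩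
  · rintro ⟨h1, h2⟩
    have h3 : 0 < ‖x‖ := (inv_pos.2 hb).trans h1
    exact ⟨(lt_inv_comm₀ h3 ha).1 h2, inv_lt_of_inv_lt₀ hb h1⟩

theorem contOn_inv3 (ha : 0 ≤ a) : ContinuousOn inv3 (ann a b) :=
  ((continuous_norm.pow 2).continuousOn.inv₀ fun x hx =>
    pow_ne_zero _ (ha.trans_lt hx.1).ne').smul continuousOn_id

theorem OE.inv3 {φ : E3 → N} (hφ : OE φ (ann a b)) (ha : 0 < a) (hab : a < b) :
    OE (φ ∘ inv3) (ann b⁻¹ a⁻¹) where
  opn := isOpen_ann _ _
  cont := hφ.cont.comp (contOn_inv3 (inv_pos.2 (ha.trans hab)).le) fun x => (inv3_mem ha hab).2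
  inj x hx y hy e := by
    rw [← inv3_inv3 x, hφ.inj ((inv3_mem ha hab).2 hx) ((inv3_mem ha hab).2 hy) e, inv3_inv3]
  img W h1 h2 := by
    rw [image_comp]
    refine hφ.img _ (image_subset_iff.2 fun x hx => (inv3_mem ha hab).2 (h1 hx)) ?_
    convert (contOn_inv3 (b := b) ha.le).isOpen_inter_preimage (isOpen_ann _ _) h2 using 1
    ext x
    constructor
    · rintro ⟨y, hy, rfl⟩
      exact ⟨(inv3_mem ha hab).2 (h1 hy), by rwa [mem_preimage, inv3_inv3]⟩
    · exact fun k => ⟨_, k.2, inv3_inv3 x⟩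

/-- **SPH** -/
theorem sph : SphGoal := by
  intro G _ hG N _ _ _ _ ⟨X, _, _, P, hX, q⟩ φ a b ha hφ
  by_cases hab : a < b
  swap
  · exact ⟨fun c h1 h2 => absurd (h1.trans h2) hab, .inl fun c _ _ h1 h2 => absurd (h1.trans h2) hab⟩
  obtain ⟨_, _, _, _, _⟩ := q.env hX
  obtain ⟨F, cF, pF⟩ := lift_ann q.cov q.surj ha hab hφ.cont
  have eT : (fun p => P (F p)) '' ann a b = φ '' ann a b := image_congr pF
  obtain ⟨h, eh, W⟩ := wall_of_model q (C := Subgroup.zpowers (1 : G)) (η := fun x => ‖x‖) hab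
    (isOpen_ann a b) (preconn_ann ha.le b) continuous_norm.continuousOn cF
    (fun W k3 k4 => by
      rw [image_congr (g := φ) fun x hx => pF x (k3 hx)]
      exact hφ.img W k3 k4)
    (fun x hx y hy e => by rw [hφ.inj hx hy (by rwa [pF x hx, pF y hy] at e)])
    (fun c c' h1 h2 => ⟨closedBall 0 c' \ ball 0 c, fun x hx => ⟨h1.trans_le (by simpa using hx.2),
      lt_of_le_of_lt (by simpa using hx.1) h2⟩, (isCompact_closedBall 0 c').diff isOpen_ball,
      fun x hx => ⟨by simpa using hx.2, by simpa using hx.1⟩,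
      fun x _ k1 k2 => ⟨x, ⟨by simpa using k2, by simpa using k1⟩, rfl⟩⟩)
    (fun c h1 h2 => by
      obtain ⟨x, hx⟩ := exists_norm_eq E3 (ha.trans h1).le
      exact ⟨x, by constructor <;> rwa [hx], hx⟩)
    (fun g hg x hx => ⟨x, hx, by
      rw [Subgroup.zpowers_one_eq_bot, Subgroup.mem_bot] at hg
      rw [hg, one_smul]⟩)
    (fun g x hx y hy e => by
      obtain rfl := hφ.inj hx hy (by rw [← pF x hx, ← pF y hy, ← e, q.inv])
      rw [q.free g _ e]
      exact one_mem _)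
  rw [eT] at W
  have eh' : ∀ x ∈ ann a b, h (φ x) = ‖x‖ := fun x hx => by rw [← pF x hx, eh x hx]
  obtain ⟨A, A', S⟩ := W.exists_sides hX
  have conv : ∀ c U V, a < c → c < b → (SepS φ a c b U V ↔ SepN h (φ '' ann a b) c U V) := by
    intro c U V h1 h2
    have m : ∀ x : E3, ‖x‖ = c → x ∈ ann a b := fun x hx => by constructor <;> rwa [hx]
    constructor
    · intro s
      refine ⟨s.oU, s.oV, s.disj, fun y => (s.cov y).imp id (Or.imp id ?_), ?_, ?_, ?_, ?_⟩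
      · rintro ⟨x, hx, rfl⟩
        exact ⟨⟨x, m x hx, rfl⟩, (eh' x (m x hx)).trans hx⟩
      all_goals
        rintro _ ⟨x, hx, rfl⟩ e
        rw [eh' x hx] at e
      exacts [s.sU x e, s.sV x e, s.mU ⟨e, hx.2⟩, s.mV ⟨hx.1, e⟩]
    · intro s
      refine ⟨s.oU, s.oV, s.disj, fun y => (s.cov y).imp id (Or.imp id ?_),
        fun x hx => s.sU _ ⟨x, m x hx, rfl⟩ ((eh' x (m x hx)).trans hx),
        fun x hx => s.sV _ ⟨x, m x hx, rfl⟩ ((eh' x (m x hx)).trans hx), fun x hx => ?_,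
        fun x hx => ?_⟩
      · rintro ⟨⟨x, hx, rfl⟩, e⟩
        exact ⟨x, (eh' x hx).symm.trans e, rfl⟩
      · have k : x ∈ ann a b := ⟨h1.trans hx.1, hx.2⟩
        exact s.mU _ ⟨x, k, rfl⟩ (by rw [eh' x k]; exact hx.1)
      · have k : x ∈ ann a b := ⟨hx.1, hx.2.trans h2⟩
        exact s.mV _ ⟨x, k, rfl⟩ (by rw [eh' x k]; exact hx.2)
  rcases W.dich hG S with hA | hA
  · exact ⟨fun c h1 h2 => ⟨_, _, (conv c _ _ h1 h2).2 (W.sepN S hA h1 h2)⟩,
      .inl fun c U V h1 h2 s => W.keepS hX S hA h1 h2 ((conv c U V h1 h2).1 s) ha h1 h2 hφ cF pF rfl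
        fun x hx => by rw [eh' x hx]⟩
  · refine ⟨fun c h1 h2 => ?_, .inr fun c U V h1 h2 s => ?_⟩
    · have := (W.flip.sepN S.flip hA (neg_lt_neg h2) (neg_lt_neg h1)).flip
      simp only [neg_neg] at this
      exact ⟨_, _, (conv c _ _ h1 h2).2 this⟩
    · have hc := ha.trans h1
      refine W.flip.keepS hX S.flip hA (neg_lt_neg h2) (neg_lt_neg h1) ((conv c U V h1 h2).1 s).flip
        (F := F ∘ inv3) (inv_pos.2 (ha.trans hab)) (inv_strictAnti₀ hc h2) (inv_strictAnti₀ ha h1)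
        (hφ.inv3 ha hab)
        (cF.comp (contOn_inv3 (inv_pos.2 (ha.trans hab)).le) fun x => (inv3_mem ha hab).2)
        (fun x hx => pF _ ((inv3_mem ha hab).2 hx)) ?_ fun x hx => ?_
      · rw [image_comp]
        congr 1
        ext x
        exact ⟨fun k => ⟨inv3 x, (inv3_mem ha hab).1 (by rwa [inv3_inv3]), inv3_inv3 x⟩,
          by rintro ⟨y, hy, rfl⟩; exact (inv3_mem ha hab).2 hy⟩
      · have k : 0 < ‖x‖ := (inv_pos.2 (ha.trans hab)).trans hx.1
        rw [Function.comp_apply, eh' _ ((inv3_mem ha hab).2 hx), norm_inv3, neg_lt_neg_iff,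
          inv_lt_comm₀ k hc]

end Vale.Agent.P216T
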