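import Vale.Agent.P216T.Tor
import Vale.Agent.P216T.Sph
import Vale.Agent.P216TE.All
import Vale.Agent.P216KV.HL2
import Vale.Agent.P216TO.Ori
import Vale.Agent.P216TK.T0a
import Vale.Agent.P216MG.T2
import Vale.Agent.P216MG.Geo
import Vale.Agent.P216FL.Main
import Vale.Agent.P216C.Top
import Vale.Agent.P216BF.VD
import Vale.Agent.P216BG.Mcp
import Vale.Agent.P216EI.Evo
import Vale.Agent.P216FI.FillV
import Vale.Agent.P216HY.Main
import Vale.Agent.P216SG.Sph
import Vale.Agent.P216DC.Cpt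

/-!
# P216T: assembly of the finished blocks
-/

namespace Vale.Agent.P216T

theorem tfbs : TfGoal ∧ BsGoal := P216TE.tf_bs P216TO.ori

theorem t0 (old : P216TK.OldGoal) : P216C.T0 :=
  P216TK.t0_of_old old tfbs.1 tfbs.2 P216MG.t2

theorem goal_mod (old : P216TK.OldGoal) (gf : P216C.GF2) : P216C.GOAL :=
  P216C.goal_of (t0 old) (P216SG.cut sph) (P216MG.thin P216TE.top (P216BG.bg _)) P216HY.hyp_lin
    P216HY.hyp_cusps P216FI.cvol (P216FL.fill (tor P216KV.hl)) gf P216BF.vd P216EI.ein P216DC.cpt0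
    P216DC.cpt1

end Vale.Agent.P216T
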