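import Vale.Agent.P216T.Sep

/-!
# P216T: one side of a wall with cyclic stabiliser contains no translate; separation downstairs
-/

set_option linter.all false

open Set Topology Filter

noncomputable section

namespace Vale.Agent.P216T

variable {G : Type} [Group G] {X N : Type} [TopologicalSpace X] [TopologicalSpace N]
  [MulAction G X] {P : X → N} {h : N → ℝ} {T : Set N} {D : Set X} {a b : ℝ} {C : Subgroup G}
  {A A' : Set X}

/-- The level `c` of the collar separates `N` into `U` (upper side) and `V` (lower side). -/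
structure SepN (h : N → ℝ) (T : Set N) (c : ℝ) (U V : Set N) : Prop where
  oU : IsOpen U
  oV : IsOpen V
  disj : Disjoint U V
  cov : ∀ y, y ∈ U ∨ y ∈ V ∨ y ∈ T ∧ h y = c
  sU : ∀ y ∈ T, h y = c → y ∉ U
  sV : ∀ y ∈ T, h y = c → y ∉ V
  mU : ∀ y ∈ T, c < h y → y ∈ U
  mV : ∀ y ∈ T, h y < c → y ∈ V

theorem SepN.flip {c : ℝ} {U V : Set N} (S : SepN h T c U V) :
    SepN (fun y => -h y) T (-c) V U where
  oU := S.oV
  oV := S.oU
  disj := S.disj.symm
  cov y := by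
    have := S.cov y
    simp only [neg_inj]
    tauto
  sU y hy e := S.sV y hy (neg_inj.1 e)
  sV y hy e := S.sU y hy (neg_inj.1 e)
  mU y hy e := S.mV y hy (neg_lt_neg_iff.1 e)
  mV y hy e := S.mU y hy (neg_lt_neg_iff.1 e)

theorem SepN.uniq [PreconnectedSpace N] {c : ℝ} {U V U' V' : Set N} (S : SepN h T c U V)
    (S' : SepN h T c U' V') (hT : IsOpen T) (hne : T.Nonempty) : U ⊆ U' := by
  have h0 : ∀ y ∈ T, y ∈ U → y ∉ V' := fun y hy k k' => by
    rcases lt_trichotomy (h y) c with e | e | e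
    · exact S.disj.ne_of_mem k (S.mV y hy e) rfl
    · exact S.sU y hy e k
    · exact S'.disj.ne_of_mem (S'.mU y hy e) k' rfl
  have h1 : IsClopen (U ∩ V') := by
    refine ⟨?_, S.oU.inter S'.oV⟩
    rw [← isOpen_compl_iff]
    convert (hT.union S.oV).union S'.oU using 1
    ext y
    constructor
    · intro k
      have := S.cov y
      have := S'.cov y
      simp only [mem_union, mem_compl_iff, mem_inter_iff] at k ⊢
      tauto
    · rintro ((k | k) | k) k'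
      · exact h0 y k k'.1 k'.2
      · exact S.disj.ne_of_mem k'.1 k rfl
      · exact S'.disj.ne_of_mem k k'.2 rfl
  intro y hy
  rcases isClopen_iff.1 h1 with e | e
  · rcases S'.cov y with k | k | k
    · exact k
    · exact absurd (e ▸ (⟨hy, k⟩ : y ∈ U ∩ V')) (notMem_empty y)
    · exact absurd hy (S.sU y k.1 k.2)
  · obtain ⟨z, hz⟩ := hne
    have := (e ▸ mem_univ z : z ∈ U ∩ V')
    exact absurd this.2 (h0 z hz this.1)

namespace Wall

theorem cocompact [WeaklyLocallyCompactSpace X] [T2Space N] (W : Wall P h T D a b C) {c : ℝ}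
    (h1 : a < c) (h2 : c < b) : ∃ K, IsCompact K ∧ ∀ x ∈ D, h (P x) = c → ∃ g ∈ C, g • x ∈ K := by
  haveI := W.quo.t2
  have h3 : ∀ y : {y | y ∈ T ∧ c ≤ h y ∧ h y ≤ c}, ∃ K : Set X, IsCompact K ∧ K ⊆ D ∧
      P '' K ∈ 𝓝 y.1 := by
    rintro ⟨y, hy, -⟩
    rw [← W.PD] at hy
    obtain ⟨x, hx, rfl⟩ := hy
    obtain ⟨K, k1, k2, k3⟩ := exists_compact_subset W.oD hx
    exact ⟨K, k1, k3, W.quo.isOpenMap.image_mem_nhds (mem_interior_iff_mem_nhds.1 k2)⟩
  choose K k1 k2 k3 using h3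
  obtain ⟨F, hF⟩ := (W.cpt c c h1 h2).elim_nhds_subcover' (fun y hy => P '' K ⟨y, hy⟩)
    fun y hy => k3 ⟨y, hy⟩
  refine ⟨⋃ y ∈ F, K y, F.isCompact_biUnion fun y _ => k1 y, fun x hx e => ?_⟩
  obtain ⟨y, hy, z, hz, e'⟩ := mem_iUnion₂.1 (hF ⟨W.mem hx, e.ge, e.le⟩)
  obtain ⟨g, rfl⟩ := W.quo.orb x z e'.symm
  exact ⟨g, W.dj g x hx (k2 y hz), mem_iUnion₂.2 ⟨y, hy, hz⟩⟩

theorem no_hyp [WeaklyLocallyCompactSpace X] [PathConnectedSpace X] [T2Space N] [Group.FG G]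
    (hG : Pk G) {γ : G} (W : Wall P h T D a b (Subgroup.zpowers γ))
    (S : Sides (fun x => h (P x)) D a b A A') {g : G} (hg : ∀ x ∈ A ∪ D, g • x ∈ A) : False := by
  obtain ⟨c, c', h1, h2, h3⟩ : ∃ c c', a < c ∧ c < c' ∧ c' < b :=
    ⟨(2 * a + b) / 3, (a + 2 * b) / 3, by linarith [W.lt], by linarith [W.lt], by linarith [W.lt]⟩
  obtain ⟨x₀, hx₀, e₀⟩ := W.ne c' (h1.trans h2) h3
  obtain ⟨K, hK, hK'⟩ := W.cocompact h1 (h2.trans h3)
  set U := A ∪ {x | x ∈ D ∧ c < h (P x)} with hU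
  have u1 : ∀ x ∈ U, x ∈ A ∪ D := fun x k => k.imp id And.left
  have u2 : ∀ x, x ∉ U → x ∈ A' ∪ D := fun x k => by
    have := S.cov x
    simp only [hU, mem_union] at k ⊢
    tauto
  have u3 : ∀ x ∈ A', x ∉ U := fun x k k' => k'.elim (fun k'' => S.d₁ x k'' k) fun k'' =>
    S.d₃ x k k''.1
  have u4 : ∀ k ∈ Subgroup.zpowers γ, ∀ x ∈ U, k • x ∈ U := fun k hk x hx =>
    hx.imp (W.smul_side S hk) fun k' => ⟨W.st k hk x k'.1, by rw [W.quo.inv]; exact k'.2⟩
  refine P216TK.wall hG (ga := γ) (g := g) (B := {u | u • x₀ ∈ U}) (fun u => ?_) (fun s => ?_)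
    (fun k => ?_) (fun u hu => ?_) ?_ fun k => ?_
  · simp only [mem_setOf_eq, mul_smul]
    exact ⟨fun k => by simpa using u4 _ (inv_mem (Subgroup.mem_zpowers γ)) _ k,
      u4 _ (Subgroup.mem_zpowers γ) _⟩
  · let p := PathConnectedSpace.somePath x₀ (s • x₀)
    refine ⟨_, W.quo.proper (isCompact_range p.continuous) hK, fun u hu => ?_⟩
    have h4 : ∃ x ∈ range p, u • x ∈ D ∧ h (P (u • x)) = c := by
      by_contra hc
      push Not at hc
      rcases ((isPreconnected_range p.continuous).image _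
        (W.quo.cont u).continuousOn).subset_or_subset (S.oA _ h1 (h2.trans h3))
        (S.oA' _ h1 (h2.trans h3)) (disjoint_left.2 (by
          rintro x k1 (k2 | k2)
          · exact u3 x k2 k1
          · exact k1.elim (fun k => S.d₂ x k k2.1) fun k => lt_asymm k.2 k2.2)) (by
          rintro _ ⟨x, hx, rfl⟩
          rcases S.cov (u • x) with k | k | k
          · exact .inl (.inl k)
          · exact .inr (.inl k)
          · rcases lt_or_gt_of_ne (hc x hx k) with k' | k'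
            · exact .inr (.inr ⟨k, k'⟩)
            · exact .inl (.inr ⟨k, k'⟩)) with k | k
      · exact hu (iff_of_true (k ⟨x₀, p.source_mem_range, rfl⟩)
          (by simp only [mem_setOf_eq, mul_smul]; exact k ⟨_, p.target_mem_range, rfl⟩))
      · have k0 : ∀ x ∈ range p, u • x ∉ U := fun x hx k' => (k ⟨x, hx, rfl⟩).elim
          (fun k'' => u3 _ k'' k') fun k'' => k'.elim (fun k3 => S.d₂ _ k3 k''.1)
            fun k3 => lt_asymm k3.2 k''.2
        exact hu (iff_of_false (k0 _ p.source_mem_range)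
          (by simp only [mem_setOf_eq, mul_smul]; exact k0 _ p.target_mem_range))
    obtain ⟨x, hx, k1, k2⟩ := h4
    obtain ⟨_, ⟨n, rfl⟩, k3⟩ := hK' _ k1 k2
    exact ⟨-n, γ ^ n * u, ⟨x, hx, by rwa [mul_smul]⟩, by simp⟩
  · simp only [mem_setOf_eq, mul_smul]
    by_cases hk : k ∈ Subgroup.zpowers γ
    · exact .inl fun u => u4 k hk _
    · rcases W.nest S hk with e | e | e | e
      · exact .inl fun u hu => .inl (e _ (u1 _ hu))
      · exact .inr (.inl fun u hu => u3 _ (e _ (u2 _ hu)))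
      · exact .inr (.inr (.inl fun u hu => u3 _ (e.1 _ (u1 _ hu))))
      · exact .inr (.inr (.inr fun u hu => .inl (e.1 _ (u2 _ hu))))
  · simp only [mem_setOf_eq, mul_smul]
    exact .inl (hg _ (u1 _ hu))
  · simp only [mem_setOf_eq, one_smul]
    exact .inr ⟨hx₀, e₀ ▸ h2⟩
  · exact S.d₂ x₀ (by simpa using hg _ (u1 _ k)) hx₀

/-- **One of the two sides is precisely invariant.** -/
theorem dich [WeaklyLocallyCompactSpace X] [PathConnectedSpace X] [T2Space N] [Group.FG G]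
    (hG : Pk G) {γ : G} (W : Wall P h T D a b (Subgroup.zpowers γ))
    (S : Sides (fun x => h (P x)) D a b A A') :
    (∀ g : G, ∀ x ∈ A' ∪ D, g • x ∈ A' ∪ D → g ∈ Subgroup.zpowers γ) ∨
      ∀ g : G, ∀ x ∈ A ∪ D, g • x ∈ A ∪ D → g ∈ Subgroup.zpowers γ := by
  by_contra hc
  push Not at hc
  obtain ⟨⟨g₁, x₁, a1, a2, a3⟩, g₂, x₂, b1, b2, b3⟩ := hc
  have n1 : ∀ x ∈ A, x ∉ A' ∪ D := fun x k k' => k'.elim (S.d₁ x k) (S.d₂ x k)
  have n2 : ∀ x ∈ A', x ∉ A ∪ D := fun x k k' => k'.elim (fun k'' => S.d₁ x k'' k) (S.d₃ x k)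
  rcases W.nest S a3 with e | e | e | e
  · exact W.no_hyp hG S e
  · exact W.flip.no_hyp hG S.flip e
  · rcases W.nest S b3 with e' | e' | e' | e'
    · exact W.no_hyp hG S e'
    · exact W.flip.no_hyp hG S.flip e'
    · exact n2 _ (e'.1 _ b1) b2
    · exact W.no_hyp hG S (g := g₂ * g₁) fun x hx => by
        rw [mul_smul]
        exact e'.1 _ (.inl (e.1 x hx))
  · exact n1 _ (e.1 _ a1) a2

theorem sepN [PreconnectedSpace X] [LocallyConnectedSpace X] [T2Space N] (W : Wall P h T D a b C)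
    (S : Sides (fun x => h (P x)) D a b A A')
    (hA : ∀ g : G, ∀ x ∈ A' ∪ D, g • x ∈ A' ∪ D → g ∈ C) {c : ℝ} (h1 : a < c) (h2 : c < b) :
    SepN h T c (P '' (A' ∪ {x | x ∈ D ∧ h (P x) ≤ c}))ᶜ (P '' (A' ∪ {x | x ∈ D ∧ h (P x) < c})) := by
  have key : ∀ x ∈ D, ∀ y ∈ A' ∪ D, P y = P x → y ∈ D := fun x hx y hy e => by
    obtain ⟨g, rfl⟩ := W.quo.orb y x e
    simpa using W.st _ (C.inv_mem (hA g y hy (.inr hx))) _ hx
  refine ⟨?_, W.quo.isOpenMap _ (S.oA' c h1 h2), disjoint_left.2 fun y k k' => k ?_, fun y => ?_,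
    fun y hy e k => k ?_, fun y hy e => ?_, fun y hy e => ?_, fun y hy e => ?_⟩
  · rw [isOpen_iff_mem_nhds]
    intro y hy
    obtain ⟨x, rfl⟩ := W.quo.surj y
    have h3 := ((W.cpt c c h1 h2).isClosed.preimage W.quo.continuous).isOpen_compl
    have h4 : x ∈ (P ⁻¹' {y | y ∈ T ∧ c ≤ h y ∧ h y ≤ c})ᶜ := fun k => by
      obtain ⟨z, hz, e⟩ : P x ∈ P '' D := W.PD ▸ k.1
      exact hy ⟨z, .inr ⟨hz, by rw [e]; exact k.2.2⟩, e⟩
    refine mem_of_superset (W.quo.isOpenMap.image_mem_nhds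
      (h3.connectedComponentIn.mem_nhds (mem_connectedComponentIn h4))) ?_
    rintro _ ⟨z, hz, rfl⟩ ⟨w, hw, e⟩
    obtain ⟨g, rfl⟩ := W.quo.orb z w e.symm
    have h5 : ∀ v ∈ connectedComponentIn (P ⁻¹' {y | y ∈ T ∧ c ≤ h y ∧ h y ≤ c})ᶜ x,
        g • v ∈ D → h (P (g • v)) ≠ c := fun v hv k e' =>
      connectedComponentIn_subset _ _ hv (by
        have := W.mem k
        rw [W.quo.inv] at this e'
        exact ⟨this, e'.ge, e'.le⟩)
    rcases (isPreconnected_connectedComponentIn.image _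
      (W.quo.cont g).continuousOn).subset_or_subset (S.oA _ h1 h2) (S.oA' _ h1 h2)
      (disjoint_left.2 (by
        rintro x (k1 | k1) (k2 | k2)
        · exact S.d₁ x k1 k2
        · exact S.d₂ x k1 k2.1
        · exact S.d₃ x k2 k1.1
        · exact lt_asymm k1.2 k2.2)) (by
        rintro _ ⟨v, hv, rfl⟩
        rcases S.cov (g • v) with k | k | k
        · exact .inl (.inl k)
        · exact .inr (.inl k)
        · rcases lt_or_gt_of_ne (h5 v hv k) with k' | k'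
          · exact .inr (.inr ⟨k, k'⟩)
          · exact .inl (.inr ⟨k, k'⟩)) with k | k
    · rcases k ⟨z, hz, rfl⟩ with k1 | k1 <;> rcases hw with k2 | k2
      · exact S.d₁ _ k1 k2
      · exact S.d₂ _ k1 k2.1
      · exact S.d₃ _ k2 k1.1
      · exact absurd k1.2 (not_lt.2 k2.2)
    · exact hy ⟨g • x, (k ⟨x, mem_connectedComponentIn h4, rfl⟩).imp id fun k => ⟨k.1, k.2.le⟩,
        W.quo.inv g x⟩
  · obtain ⟨x, hx, rfl⟩ := k'
    exact ⟨x, hx.imp id fun k => ⟨k.1, k.2.le⟩, rfl⟩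
  · by_cases hy : y ∈ P '' (A' ∪ {x | x ∈ D ∧ h (P x) ≤ c})
    · obtain ⟨x, hx | hx, rfl⟩ := hy
      · exact .inr (.inl ⟨x, .inl hx, rfl⟩)
      · rcases hx.2.lt_or_eq with e | e
        · exact .inr (.inl ⟨x, .inr ⟨hx.1, e⟩, rfl⟩)
        · exact .inr (.inr ⟨W.mem hx.1, e⟩)
    · exact .inl hy
  · obtain ⟨x, hx, rfl⟩ : y ∈ P '' D := W.PD ▸ hy
    exact ⟨x, .inr ⟨hx, e.le⟩, rfl⟩
  · obtain ⟨x, hx, rfl⟩ : y ∈ P '' D := W.PD ▸ hy
    rintro ⟨z, hz | hz, e'⟩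
    · exact S.d₃ z hz (key x hx z (.inl hz) e')
    · exact hz.2.ne (e' ▸ e)
  · obtain ⟨x, hx, rfl⟩ : y ∈ P '' D := W.PD ▸ hy
    rintro ⟨z, hz | hz, e'⟩
    · exact S.d₃ z hz (key x hx z (.inl hz) e')
    · exact absurd (e' ▸ hz.2) (not_le.2 e)
  · obtain ⟨x, hx, rfl⟩ : y ∈ P '' D := W.PD ▸ hy
    exact ⟨x, .inr ⟨hx, e⟩, rfl⟩

end Wall

end Vale.Agent.P216T
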