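import Vale.Agent.P216T.Dich

/-!
# P216T: replacing the precisely invariant side
-/

set_option linter.all false

open Set Topology Filter

noncomputable section

namespace Vale.Agent.P216T

variable {G : Type} [Group G] {X N : Type} [TopologicalSpace X] [TopologicalSpace N]
  [MulAction G X] {P : X → N} {h : N → ℝ} {T : Set N} {D : Set X} {a b : ℝ} {C : Subgroup G}
  {A A' : Set X}

/-- the part of the covering over `U` -/
def Quo.over (q : Quo G P) (U : Set N) : SubMulAction G X where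
  carrier := P ⁻¹' U
  smul_mem' g x hx := by rwa [mem_preimage, q.inv]

theorem Quo.quoO (q : Quo G P) {U : Set N} {N' : Type} [TopologicalSpace N'] {j : N → N'}
    (hj : OE j U) : QuoO G fun x : q.over U => j (P x) where
  loc := by
    have ho : IsOpenMap (Subtype.val : q.over U → X) :=
      (hj.opn.preimage q.continuous).isOpenMap_subtype_val
    refine loc_of (hj.cont.comp_continuous (q.continuous.comp continuous_subtype_val) fun x => x.2)
      (fun W hW => ?_) fun x => ?_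
    · have := hj.img _ (by rintro _ ⟨_, ⟨x, -, rfl⟩, rfl⟩; exact x.2) (q.isOpenMap _ (ho W hW))
      rwa [image_image, image_image] at this
    · obtain ⟨O, h1, h2, h3⟩ := q.loc.isLocallyInjective x.1
      exact ⟨Subtype.val ⁻¹' O, h1.preimage continuous_subtype_val, h2, fun y hy z hz e =>
        Subtype.ext (h3 hy hz (hj.inj y.2 z.2 e))⟩
  cont g := ((q.cont g).comp continuous_subtype_val).subtype_mk _
  inv g x := congrArg j (q.inv g x)
  orb x y e := by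
    obtain ⟨g, hg⟩ := q.orb x y (hj.inj x.2 y.2 e)
    exact ⟨g, Subtype.ext hg⟩
  free g x e := q.free g x (congrArg Subtype.val e)

theorem Quo.range_over (q : Quo G P) (U : Set N) {N' : Type} (j : N → N') :
    range (fun x : q.over U => j (P x)) = j '' U := by
  ext y
  constructor
  · rintro ⟨x, rfl⟩
    exact ⟨_, x.2, rfl⟩
  · rintro ⟨y, hy, rfl⟩
    obtain ⟨x, rfl⟩ := q.surj y
    exact ⟨⟨x, hy⟩, rfl⟩

/-- gluing data from a covering of `N` and an open embedding of `U` -/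
theorem Quo.exists_gd (q : Quo G P) {U : Set N} {N' Λ Q : Type} [TopologicalSpace N'] [Group Λ]
    [TopologicalSpace Q] [MulAction Λ Q] {j : N → N'} (hj : OE j U) {Φ : Q → N'} (hΦ : QuoO Λ Φ)
    (m : Λ →* G) (cov : ∀ y, y ∈ j '' U ∨ y ∈ range Φ) {θ : Q → X}
    (cθ : ContinuousOn θ (Φ ⁻¹' (j '' U)))
    (pθ : ∀ z, Φ z ∈ j '' U → P (θ z) ∈ U ∧ j (P (θ z)) = Φ z)
    (eθ : ∀ (l : Λ) z, Φ z ∈ j '' U → θ (l • z) = m l • θ z) (hS' : (Φ ⁻¹' (j '' U)).Nonempty) :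
    ∃ E : GD G Λ (q.over U) Q N', E.P = (fun x : q.over U => j (P x)) ∧ E.Φ = Φ ∧ E.m = m ∧
      ∀ z, Φ z ∈ j '' U → (E.θ z : X) = θ z := by
  classical
  obtain ⟨z₀, hz₀⟩ := hS'
  let θ' : Q → q.over U := fun z =>
    if k : Φ z ∈ j '' U then ⟨θ z, (pθ z k).1⟩ else ⟨θ z₀, (pθ z₀ hz₀).1⟩
  have e : ∀ z, Φ z ∈ j '' U → (θ' z : X) = θ z := fun z k => by simp only [θ', dif_pos k]
  refine ⟨⟨_, Φ, m, θ', q.quoO hj, hΦ, by rwa [q.range_over], ?_, ?_, ?_⟩, rfl, rfl, rfl, e⟩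
  · rw [q.range_over, IsInducing.subtypeVal.continuousOn_iff]
    exact cθ.congr e
  · rw [q.range_over]
    intro z k
    rw [e z k, (pθ z k).2]
  · rw [q.range_over]
    intro l z k
    refine Subtype.ext ?_
    rw [e _ (by rwa [hΦ.inv]), eθ l z k, ← e z k]
    rfl

theorem Wall.replace [T2Space N] [LocallyConnectedSpace X] (W : Wall P h T D a b C) (hX : SC X)
    (S : Sides (fun x => h (P x)) D a b A A')
    (hA : ∀ g : G, ∀ x ∈ A' ∪ D, g • x ∈ A' ∪ D → g ∈ C) {c : ℝ} (h1 : a < c) (h2 : c < b)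
    {U V : Set N} (hU : SepN h T c U V) {N' Λ Q : Type} [TopologicalSpace N'] [Group Λ]
    [TopologicalSpace Q] [MulAction Λ Q] {j : N → N'} (hj : OE j U) {Φ : Q → N'} (hΦ : QuoO Λ Φ)
    (hQ : SC Q) (m : Λ →* G) (cov : ∀ y, y ∈ j '' U ∨ y ∈ range Φ) {θ : Q → X}
    (cθ : ContinuousOn θ (Φ ⁻¹' (j '' U)))
    (pθ : ∀ z, Φ z ∈ j '' U → P (θ z) ∈ U ∧ j (P (θ z)) = Φ z)
    (eθ : ∀ (l : Λ) z, Φ z ∈ j '' U → θ (l • z) = m l • θ z)
    (hS : IsPreconnected (Φ ⁻¹' (j '' U))) (hS' : (Φ ⁻¹' (j '' U)).Nonempty) {u : X → Q}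
    (hu : ∀ x ∈ A' ∪ D, ∃ v : X → Q, ContinuousAt v x ∧
      ∀ᶠ y in 𝓝 x, ∃ l : Λ, m l = 1 ∧ u y = l • v y)
    (hu' : ∀ x ∈ D, c < h (P x) → Φ (u x) ∈ j '' U ∧ θ (u x) = x) : InC G N' := by
  classical
  haveI := hX.conn
  haveI : ConnectedSpace N := W.quo.surj.connectedSpace W.quo.continuous
  obtain ⟨E, e1, e2, e3, e4⟩ := W.quo.exists_gd hj hΦ m cov cθ pθ eθ hS'
  have e5 : range E.P = j '' U := by rw [e1, W.quo.range_over]
  have hT : T.Nonempty := W.PD ▸ W.nonempty.image P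
  have s1 := hU.uniq (W.sepN S hA h1 h2) W.oT hT
  have s2 := (W.sepN S hA h1 h2).uniq hU W.oT hT
  have oR : IsOpen (A' ∪ D) := S.flip.open_union (neg_lt_neg W.lt) W.oD
  have stR : ∀ g ∈ C, ∀ x ∈ A' ∪ D, g • x ∈ A' ∪ D := fun g hg x hx =>
    hx.imp (W.flip.smul_side S.flip hg) (W.st g hg x)
  have hρ : ∀ x, ∃ g : G, P x ∉ U → g⁻¹ • x ∈ A' ∪ D := fun x => by
    by_cases k : P x ∈ U
    · exact ⟨1, fun k' => absurd k k'⟩
    · obtain ⟨z, hz, e⟩ := not_not.1 fun k' => k (s2 k')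
      obtain ⟨g, rfl⟩ := W.quo.orb z x e
      exact ⟨g, fun _ => by rw [inv_smul_smul]; exact hz.imp id And.left⟩
  choose ρ₀ hρ₀ using hρ
  let rep : G → G := fun g => (QuotientGroup.mk g : G ⧸ C).out
  have r1 : ∀ g x, g⁻¹ • x ∈ A' ∪ D → (rep g)⁻¹ • x ∈ A' ∪ D := fun g x k => by
    have := stR _ (QuotientGroup.eq.1 (QuotientGroup.out_eq' (QuotientGroup.mk g : G ⧸ C))) _ k
    rwa [mul_smul, smul_inv_smul] at this
  have r2 : ∀ g g' x, g⁻¹ • x ∈ A' ∪ D → g'⁻¹ • x ∈ A' ∪ D → rep g = rep g' :=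
    fun g g' x k k' => congrArg Quotient.out (QuotientGroup.eq.2
      (hA _ _ k' (by rwa [mul_smul, smul_inv_smul])))
  let φ : X → E.T := fun x => if k : P x ∈ U then E.inl ⟨x, k⟩
    else rep (ρ₀ x) • E.ι (u ((rep (ρ₀ x))⁻¹ • x))
  have f1 : ∀ g x, g⁻¹ • x ∈ A' ∪ D → φ x = rep g • E.ι (u ((rep g)⁻¹ • x)) := by
    intro g x k
    by_cases k1 : P x ∈ U
    · have k2 := r1 g x k
      have k3 : P ((rep g)⁻¹ • x) ∉ P '' (A' ∪ {x | x ∈ D ∧ h (P x) ≤ c}) :=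
        s1 (by rwa [W.quo.inv])
      have k4 : (rep g)⁻¹ • x ∈ D := k2.resolve_left fun k4 => k3 ⟨_, .inl k4, rfl⟩
      obtain ⟨k5, k6⟩ := hu' _ k4 (not_le.1 fun k5 => k3 ⟨_, .inr ⟨k4, k5⟩, rfl⟩)
      simp only [φ, dif_pos k1]
      rw [E.ι_pos (by rwa [e5, e2]), E.smul_inl]
      congr 1
      refine Subtype.ext ?_
      show x = rep g • (E.θ _ : X)
      rw [e4 _ k5, k6, smul_inv_smul]
    · simp only [φ, dif_neg k1]
      rw [r2 _ g x (hρ₀ x k1) k]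
  have f2 : ∀ x ∈ A' ∪ D, ContinuousAt (fun y => E.ι (u y)) x := by
    intro x hx
    obtain ⟨v, k1, k2⟩ := hu x hx
    refine (E.cont_ι.continuousAt.comp k1).congr (k2.mono ?_)
    rintro y ⟨l, k3, k4⟩
    show E.ι (v y) = E.ι (u y)
    rw [k4, E.ι_smul, e3, k3, one_smul]
  refine ⟨E.T, inferInstance, inferInstance, E.pr, E.sc hX hQ (by rwa [e5, e2]) (by rwa [e5, e2])
    (φ := φ) ?_ continuous_subtype_val fun x => dif_pos x.2, E.quo⟩
  rw [continuous_iff_continuousAt]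
  intro x
  by_cases k : P x ∈ U
  · have k1 : ContinuousOn φ (P ⁻¹' U) := by
      rw [continuousOn_iff_continuous_restrict]
      exact E.cont_inl.congr fun y => (show φ y = E.inl y from dif_pos y.2).symm
    exact k1.continuousAt ((hj.opn.preimage W.quo.continuous).mem_nhds k)
  · have k1 := hρ₀ x k
    have k2 : ContinuousAt (fun y => rep (ρ₀ x) • E.ι (u ((rep (ρ₀ x))⁻¹ • y))) x :=
      (E.cont_smul _).continuousAt.comp
        (ContinuousAt.comp (f := fun y => (rep (ρ₀ x))⁻¹ • y) (f2 _ (r1 _ x k1))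
          (W.quo.cont _).continuousAt)
    refine k2.congr ?_
    filter_upwards [(oR.preimage (W.quo.cont (ρ₀ x)⁻¹)).mem_nhds k1] with y hy
    exact (f1 _ y hy).symm

end Vale.Agent.P216T
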