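import Vale.Agent.P216T.Glue
import Vale.Agent.P216TK.Wall
import Mathlib.Topology.Covering.AddCircle
import Mathlib.Topology.Connected.LocallyPathConnected

/-!
# P216T: a lifted collar separates the universal covering; one side contains no translate
-/

set_option linter.all false

open Set Topology Filter

noncomputable section

namespace Vale.Agent.P216T

variable {G : Type} [Group G] {X N : Type} [TopologicalSpace X] [TopologicalSpace N]
  [MulAction G X]

/-- `T` is a collar with height function `h`, `D` a component of its preimage, `C` the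
stabiliser of `D`. -/
structure Wall (P : X → N) (h : N → ℝ) (T : Set N) (D : Set X) (a b : ℝ) (C : Subgroup G) :
    Prop where
  quo : Quo G P
  lt : a < b
  oT : IsOpen T
  hc : ContinuousOn h T
  cpt : ∀ c c', a < c → c' < b → IsCompact {y | y ∈ T ∧ c ≤ h y ∧ h y ≤ c'}
  oD : IsOpen D
  PD : P '' D = T
  st : ∀ g ∈ C, ∀ x ∈ D, g • x ∈ D
  dj : ∀ g : G, ∀ x ∈ D, g • x ∈ D → g ∈ C
  conn : IsPreconnected D
  ne : ∀ c, a < c → c < b → ∃ x ∈ D, h (P x) = c

/-- The two sides of `D`. -/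
structure Sides (H : X → ℝ) (D : Set X) (a b : ℝ) (A A' : Set X) : Prop where
  cov : ∀ x, x ∈ A ∨ x ∈ A' ∨ x ∈ D
  d₁ : ∀ x ∈ A, x ∉ A'
  d₂ : ∀ x ∈ A, x ∉ D
  d₃ : ∀ x ∈ A', x ∉ D
  oA : ∀ c, a < c → c < b → IsOpen (A ∪ {x | x ∈ D ∧ c < H x})
  oA' : ∀ c, a < c → c < b → IsOpen (A' ∪ {x | x ∈ D ∧ H x < c})

variable {P : X → N} {h : N → ℝ} {T : Set N} {D : Set X} {a b : ℝ} {C : Subgroup G}
  {A A' B B' : Set X} {H : X → ℝ}

theorem Sides.flip (S : Sides H D a b A A') : Sides (fun x => -H x) D (-b) (-a) A' A where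
  cov x := by have := S.cov x; tauto
  d₁ x hx k := S.d₁ x k hx
  d₂ := S.d₃
  d₃ := S.d₂
  oA c h1 h2 := by
    simpa only [lt_neg (a := c)] using S.oA' (-c) (by linarith) (by linarith)
  oA' c h1 h2 := by
    simpa only [neg_lt (b := c)] using S.oA (-c) (by linarith) (by linarith)

theorem Wall.flip (W : Wall P h T D a b C) : Wall P (fun y => -h y) T D (-b) (-a) C where
  quo := W.quo
  lt := neg_lt_neg W.lt
  oT := W.oT
  hc := W.hc.neg
  cpt c c' h1 h2 := by
    convert W.cpt (-c') (-c) (by linarith) (by linarith) using 3 with y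
    constructor <;> rintro ⟨h3, h4, h5⟩ <;> exact ⟨h3, by linarith, by linarith⟩
  oD := W.oD
  PD := W.PD
  st := W.st
  dj := W.dj
  conn := W.conn
  ne c h1 h2 := by
    obtain ⟨x, hx, e⟩ := W.ne (-c) (by linarith) (by linarith)
    exact ⟨x, hx, by rw [e, neg_neg]⟩

namespace Wall

theorem mem (W : Wall P h T D a b C) {x : X} (hx : x ∈ D) : P x ∈ T := W.PD ▸ mem_image_of_mem P hx

theorem hcD (W : Wall P h T D a b C) : ContinuousOn (fun x => h (P x)) D :=
  W.hc.comp W.quo.continuous.continuousOn fun _ hx => W.mem hx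

theorem nonempty (W : Wall P h T D a b C) : D.Nonempty := by
  obtain ⟨x, hx, -⟩ := W.ne ((a + b) / 2) (by linarith [W.lt]) (by linarith [W.lt])
  exact ⟨x, hx⟩

theorem closed_band [T2Space N] (W : Wall P h T D a b C) {c c' : ℝ} (h1 : a < c) (h2 : c' < b) :
    IsClosed {x | x ∈ D ∧ c ≤ h (P x) ∧ h (P x) ≤ c'} := by
  have h3 := (W.cpt c c' h1 h2).isClosed.preimage W.quo.continuous
  have h4 : IsOpen (⋃ g ∈ (Cᶜ : Set G), (fun x => g • x) ⁻¹' D) :=
    isOpen_biUnion fun g _ => W.oD.preimage (W.quo.cont g)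
  convert h3.sdiff h4 using 1
  ext x
  constructor
  · rintro ⟨a1, a2⟩
    refine ⟨⟨W.mem a1, a2⟩, fun k => ?_⟩
    obtain ⟨g, hg, k⟩ := mem_iUnion₂.1 k
    exact hg (W.dj g x a1 k)
  · rintro ⟨⟨a1, a2⟩, a3⟩
    refine ⟨?_, a2⟩
    rw [← W.PD] at a1
    obtain ⟨y, hy, e⟩ := a1
    obtain ⟨g, rfl⟩ := W.quo.orb x y e.symm
    by_cases hg : g ∈ C
    · simpa using W.st _ (C.inv_mem hg) _ hy
    · exact absurd (mem_iUnion₂.2 ⟨g, hg, hy⟩) a3

theorem exists_sides [T2Space N] (W : Wall P h T D a b C) (hX : SC X) :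
    ∃ A A', Sides (fun x => h (P x)) D a b A A' := by
  classical
  obtain ⟨c₁, c₂, h1, h2, h3⟩ : ∃ c₁ c₂, a < c₁ ∧ c₁ < c₂ ∧ c₂ < b :=
    ⟨(2 * a + b) / 3, (a + 2 * b) / 3, by linarith [W.lt], by linarith [W.lt], by linarith [W.lt]⟩
  let u : X → ℝ := fun x => max 0 (min 1 ((h (P x) - c₁) / (c₂ - c₁)))
  have hu : ContinuousOn u D := continuousOn_const.sup (continuousOn_const.inf
    ((W.hcD.sub continuousOn_const).div_const _))
  have u0 : ∀ x, h (P x) ≤ c₁ → u x = 0 := fun x hx =>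
    max_eq_left (min_le_of_right_le (div_nonpos_of_nonpos_of_nonneg (by linarith) (by linarith)))
  have u1 : ∀ x, c₂ ≤ h (P x) → u x = 1 := fun x hx => by
    have : 1 ≤ (h (P x) - c₁) / (c₂ - c₁) := by rw [le_div_iff₀ (by linarith)]; linarith
    simp only [u, min_eq_left this, max_eq_right zero_le_one]
  let f : X → AddCircle (1 : ℝ) := fun x => if x ∈ D then (u x : AddCircle (1 : ℝ)) else 0
  have hp := AddCircle.isCoveringMap_coe (1 : ℝ)
  have hf : Continuous f := by
    rw [continuous_iff_continuousAt]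
    intro x
    by_cases hx : x ∈ D
    · refine (hp.continuous.continuousAt.comp (hu.continuousAt (W.oD.mem_nhds hx))).congr ?_
      filter_upwards [W.oD.mem_nhds hx] with y hy
      exact (if_pos hy).symm
    · refine (continuousAt_const (y := (0 : AddCircle (1 : ℝ)))).congr ?_
      filter_upwards [(W.closed_band h1 h3).isOpen_compl.mem_nhds fun k => hx k.1] with y hy
      by_cases k : y ∈ D
      · simp only [f, if_pos k]
        rcases le_total (h (P y)) c₁ with k1 | k1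
        · rw [u0 y k1, AddCircle.coe_zero]
        · rw [u1 y (not_le.1 fun k2 => hy ⟨k, k1, k2⟩).le, AddCircle.coe_period]
      · exact (if_neg k).symm
  obtain ⟨x₀, hx₀⟩ := W.nonempty
  obtain ⟨F, f1, f2, f3⟩ := hX.lift _ _ _ hp f hf x₀ (u x₀) (if_pos hx₀).symm
  have f4 : EqOn F u D := hp.eqOn_of_comp_eqOn W.conn f1.continuousOn hu
    (fun x hx => (f3 x).trans (if_pos hx)) hx₀ f2
  have f5 : ∀ x, x ∉ D → F x ≠ 1 / 2 := fun x hx e => by
    have k := (f3 x).trans (if_neg hx)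
    rw [e, AddCircle.coe_eq_zero_iff] at k
    obtain ⟨n, hn⟩ := k
    have k2 : ((2 * n : ℤ) : ℝ) = (1 : ℤ) := by
      rw [zsmul_eq_mul] at hn
      push_cast
      linarith
    have := Int.cast_injective k2
    omega
  refine ⟨{x | x ∉ D ∧ 1 / 2 < F x}, {x | x ∉ D ∧ F x < 1 / 2}, fun x => ?_,
    fun x hx k => lt_asymm hx.2 k.2, fun x hx => hx.1, fun x hx => hx.1, fun c k1 k2 => ?_,
    fun c k1 k2 => ?_⟩
  · by_cases hx : x ∈ D
    · exact .inr (.inr hx)
    · rcases lt_or_gt_of_ne (f5 x hx) with k | k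
      · exact .inr (.inl ⟨hx, k⟩)
      · exact .inl ⟨hx, k⟩
  · convert ((isOpen_lt (continuous_const (y := (1 / 2 : ℝ))) f1).sdiff
      (W.closed_band h1 k2)).union (W.hcD.isOpen_inter_preimage W.oD (isOpen_Ioi (a := c))) using 1
    ext x
    constructor
    · rintro (⟨a1, a2⟩ | a1)
      · exact .inl ⟨a2, fun k => a1 k.1⟩
      · exact .inr a1
    · rintro (⟨a1, a2⟩ | a1)
      · by_cases hx : x ∈ D
        · refine .inr ⟨hx, not_le.1 fun k => a2 ⟨hx, not_lt.1 fun k' => ?_, k⟩⟩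
          have a3 : 1 / 2 < F x := a1
          rw [f4 hx, u0 x k'.le] at a3
          linarith
        · exact .inl ⟨hx, a1⟩
      · exact .inr a1
  · convert ((isOpen_lt f1 (continuous_const (y := (1 / 2 : ℝ)))).sdiff
      (W.closed_band k1 h3)).union (W.hcD.isOpen_inter_preimage W.oD (isOpen_Iio (a := c))) using 1
    ext x
    constructor
    · rintro (⟨a1, a2⟩ | a1)
      · exact .inl ⟨a2, fun k => a1 k.1⟩
      · exact .inr a1
    · rintro (⟨a1, a2⟩ | a1)
      · by_cases hx : x ∈ D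
        · refine .inr ⟨hx, not_le.1 fun k => a2 ⟨hx, k, not_lt.1 fun k' => ?_⟩⟩
          have a3 : F x < 1 / 2 := a1
          rw [f4 hx, u1 x k'.le] at a3
          linarith
        · exact .inl ⟨hx, a1⟩
      · exact .inr a1

end Wall

namespace Sides

theorem open_union (S : Sides H D a b A A') (hab : a < b) (hD : IsOpen D) : IsOpen (A ∪ D) := by
  convert (S.oA ((a + b) / 2) (by linarith) (by linarith)).union hD using 1
  ext x
  simp only [mem_union, mem_setOf_eq]
  tauto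

theorem closed (S : Sides H D a b A A') (hab : a < b) (hD : IsOpen D) : IsClosed A := by
  rw [← isOpen_compl_iff]
  convert S.flip.open_union (neg_lt_neg hab) hD using 1
  ext x
  have := S.cov x
  have := S.d₁ x
  have := S.d₂ x
  simp only [mem_union, mem_compl_iff]
  tauto

theorem uniq [PreconnectedSpace X] (S : Sides H D a b A A') (S' : Sides H D a b B B')
    (hab : a < b) (hD : IsOpen D) (hne : D.Nonempty) : A ⊆ B := by
  have h1 : IsClopen (A ∩ B') := by
    refine ⟨(S.closed hab hD).inter (S'.flip.closed (neg_lt_neg hab) hD), ?_⟩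
    convert (S.oA ((a + b) / 2) (by linarith) (by linarith)).inter
      (S'.oA' ((a + b) / 2) (by linarith) (by linarith)) using 1
    ext x
    constructor
    · exact fun k => ⟨.inl k.1, .inl k.2⟩
    · rintro ⟨k1 | k1, k2 | k2⟩
      · exact ⟨k1, k2⟩
      · exact absurd k2.1 (S.d₂ x k1)
      · exact absurd k1.1 (S'.d₃ x k2)
      · exact absurd k1.2 (lt_asymm k2.2)
  intro x hx
  rcases isClopen_iff.1 h1 with e | e
  · rcases S'.cov x with k | k | k
    · exact k
    · exact absurd (e ▸ (⟨hx, k⟩ : x ∈ A ∩ B')) (notMem_empty x)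
    · exact absurd k (S.d₂ x hx)
  · obtain ⟨y, hy⟩ := hne
    exact absurd hy (S.d₂ y (e ▸ mem_univ y : y ∈ A ∩ B').1)

end Sides

namespace Wall

variable [PreconnectedSpace X] (W : Wall P h T D a b C)
include W

theorem smul_side (S : Sides (fun x => h (P x)) D a b A A') {g : G} (hg : g ∈ C) {x : X}
    (hx : x ∈ A) : g • x ∈ A := by
  have e : ∀ x, g • x ∈ D ↔ x ∈ D := fun x =>
    ⟨fun k => by simpa using W.st _ (C.inv_mem hg) _ k, W.st g hg x⟩
  have S' : Sides (fun x => h (P x)) D a b ((fun x => g • x) ⁻¹' A) ((fun x => g • x) ⁻¹' A') :=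
    { cov := fun x => by simpa only [e, mem_preimage] using S.cov (g • x)
      d₁ := fun x => S.d₁ _
      d₂ := fun x k k' => S.d₂ _ k ((e x).2 k')
      d₃ := fun x k k' => S.d₃ _ k ((e x).2 k')
      oA := fun c k1 k2 => by
        convert (S.oA c k1 k2).preimage (W.quo.cont g) using 1
        ext x
        simp only [mem_union, mem_preimage, mem_setOf_eq, e, W.quo.inv]
      oA' := fun c k1 k2 => by
        convert (S.oA' c k1 k2).preimage (W.quo.cont g) using 1
        ext x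
        simp only [mem_union, mem_preimage, mem_setOf_eq, e, W.quo.inv] }
  exact S.uniq S' W.lt W.oD W.nonempty hx

omit [PreconnectedSpace X] in
theorem side_or (S : Sides (fun x => h (P x)) D a b A A') {g : G} (hg : g ∉ C) :
    (∀ x ∈ D, g • x ∉ A') ∨ ∀ x ∈ D, g • x ∉ A := by
  have h1 : a < (a + b) / 2 := by linarith [W.lt]
  have h2 : (a + b) / 2 < b := by linarith [W.lt]
  have h3 : ∀ x ∈ D, g • x ∉ D := fun x hx k => hg (W.dj g x hx k)
  rcases (W.conn.image _ (W.quo.cont g).continuousOn).subset_or_subset (S.oA _ h1 h2)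
    (S.oA' _ h1 h2) (disjoint_left.2 (by
      rintro x (k1 | k1) (k2 | k2)
      · exact S.d₁ x k1 k2
      · exact S.d₂ x k1 k2.1
      · exact S.d₃ x k2 k1.1
      · exact lt_asymm k1.2 k2.2)) (by
      rintro _ ⟨x, hx, rfl⟩
      rcases S.cov (g • x) with k | k | k
      · exact .inl (.inl k)
      · exact .inr (.inl k)
      · exact absurd k (h3 x hx)) with k | k
  · exact .inl fun x hx k' => (k ⟨x, hx, rfl⟩).elim (fun k'' => S.d₁ _ k'' k') fun k'' =>
      h3 x hx k''.1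
  · exact .inr fun x hx k' => (k ⟨x, hx, rfl⟩).elim (fun k'' => S.d₁ _ k' k'') fun k'' =>
      h3 x hx k''.1

theorem corner {S S' : Set X} (c1 : IsClosed S) (o1 : IsOpen (S ∪ D)) (c2 : IsClosed S')
    (o2 : IsOpen (S' ∪ D)) {g : G} (hg : g ∉ C) (h1 : ∀ x ∈ D, g • x ∉ S)
    (h2 : ∀ x ∈ D, g⁻¹ • x ∉ S') : ∀ x ∈ S' ∪ D, g • x ∉ S ∪ D := by
  have e : (S' ∪ D) ∩ (fun x => g • x) ⁻¹' (S ∪ D) = S' ∩ (fun x => g • x) ⁻¹' S := by
    ext x
    constructor
    · rintro ⟨k1 | k1, k2 | k2⟩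
      · exact ⟨k1, k2⟩
      · exact absurd (by simpa using k1) (h2 _ k2)
      · exact absurd k2 (h1 x k1)
      · exact absurd (W.dj g x k1 k2) hg
    · exact fun k => ⟨.inl k.1, .inl k.2⟩
  have h3 : IsClopen ((S' ∪ D) ∩ (fun x => g • x) ⁻¹' (S ∪ D)) :=
    ⟨e ▸ c2.inter (c1.preimage (W.quo.cont g)), o2.inter (o1.preimage (W.quo.cont g))⟩
  rcases isClopen_iff.1 h3 with k | k
  · exact fun x k1 k2 => notMem_empty x (k ▸ ⟨k1, k2⟩)
  · obtain ⟨y, hy⟩ := W.nonempty
    rw [e] at k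
    exact absurd (k ▸ mem_univ y : y ∈ S' ∩ (fun x => g • x) ⁻¹' S).2 (h1 y hy)

/-- The four possible positions of a translate. -/
theorem nest (S : Sides (fun x => h (P x)) D a b A A') {g : G} (hg : g ∉ C) :
    (∀ x ∈ A ∪ D, g • x ∈ A) ∨ (∀ x ∈ A' ∪ D, g • x ∈ A') ∨
      ((∀ x ∈ A ∪ D, g • x ∈ A') ∧ ∀ x ∈ D, g • x ∉ A) ∨
      ((∀ x ∈ A' ∪ D, g • x ∈ A) ∧ ∀ x ∈ D, g • x ∉ A') := by
  have c1 := S.closed W.lt W.oD
  have c2 := S.flip.closed (neg_lt_neg W.lt) W.oD
  have o1 := S.open_union W.lt W.oD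
  have o2 := S.flip.open_union (neg_lt_neg W.lt) W.oD
  have i1 : ∀ x, x ∉ A' ∪ D → x ∈ A := fun x k => by
    have := S.cov x
    simp only [mem_union] at k
    tauto
  have i2 : ∀ x, x ∉ A ∪ D → x ∈ A' := fun x k => by
    have := S.cov x
    simp only [mem_union] at k
    tauto
  rcases W.side_or S hg with k | k <;>
    rcases W.side_or S (g := g⁻¹) (fun k => hg (C.inv_mem_iff.1 k)) with k' | k'
  · exact .inr (.inr (.inr ⟨fun x hx => i1 _ (W.corner c2 o2 c2 o2 hg k k' x hx), k⟩))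
  · exact .inl fun x hx => i1 _ (W.corner c2 o2 c1 o1 hg k k' x hx)
  · exact .inr (.inl fun x hx => i2 _ (W.corner c1 o1 c2 o2 hg k k' x hx))
  · exact .inr (.inr (.inl ⟨fun x hx => i2 _ (W.corner c1 o1 c1 o1 hg k k' x hx), k⟩))

end Wall

end Vale.Agent.P216T
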