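import Vale.Agent.P216T.TorA
import Vale.Agent.P216T.HLDef
import Mathlib.Analysis.SpecialFunctions.Complex.Arg

/-!
# P216T: surgery along tori
-/

set_option linter.all false

open Set Topology Filter Metric

noncomputable section

namespace Vale.Agent.P216T

/-- translation along the core of the solid torus -/
abbrev tubeAct (R : ℝ) : MulAction (Multiplicative ℤ) (ball (0 : ℂ) R × ℝ) where
  smul l q := (q.1, q.2 + (l.toAdd : ℤ))
  one_smul q := by
    show (q.1, q.2 + ((0 : ℤ) : ℝ)) = q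
    simp
  mul_smul l l' q := by
    show (q.1, q.2 + ((l.toAdd + l'.toAdd : ℤ) : ℝ)) = (q.1, q.2 + (l'.toAdd : ℤ) + (l.toAdd : ℤ))
    push_cast
    rw [add_assoc, add_comm (l.toAdd : ℝ)]

theorem sc_tube {R : ℝ} (hR : 0 < R) : SC (ball (0 : ℂ) R × ℝ) := by
  have h1 : Convex ℝ (ball (0 : ℂ) R ×ˢ (univ : Set ℝ)) := (convex_ball (0 : ℂ) R).prod convex_univ
  have h2 : SC (ball (0 : ℂ) R ×ˢ (univ : Set ℝ) : Set (ℂ × ℝ)) :=
    sc_convex h1 ((nonempty_ball.2 hR).prod univ_nonempty)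
  exact (h2.homeo (Homeomorph.Set.prod _ _)).homeo
    ((Homeomorph.refl _).prodCongr (Homeomorph.Set.univ ℝ))

theorem Tube.quoO {N : Type} [TopologicalSpace N] {Φ : ℂ × ℝ → N} {R : ℝ} (H : Tube Φ R) :
    letI := tubeAct R
    QuoO (Multiplicative ℤ) fun q : ball (0 : ℂ) R × ℝ => Φ (q.1, q.2) := by
  letI := tubeAct R
  have m : ∀ w : ball (0 : ℂ) R, ‖(w : ℂ)‖ < R := fun w => mem_ball_zero_iff.1 w.2
  refine ⟨loc_of (H.cont.comp_continuous (by fun_prop) fun q => m q.1) (fun W hW => ?_)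
    fun q => ⟨{p | |p.2 - q.2| < 1 / 2}, isOpen_lt (by fun_prop) continuous_const, by simp,
      fun p hp p' hp' e => ?_⟩, fun l => ?_, fun l q => ?_, fun p p' e => ?_, fun l q e => ?_⟩
  · have := H.img _ (by rintro _ ⟨q, -, rfl⟩; exact m q.1)
      ((isOpen_ball.isOpenEmbedding_subtypeVal.prodMap IsOpenEmbedding.id).isOpenMap W hW)
    rwa [image_image] at this
  · obtain ⟨n, hn⟩ := (H.eq_iff _ _ (m p.1) (m p'.1)).1 e
    obtain ⟨k1, k2⟩ := Prod.ext_iff.1 hn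
    have k3 : |(n : ℝ)| < 1 := by
      have k4 := abs_lt.1 (show |p.2 - q.2| < 1 / 2 from hp)
      have k5 := abs_lt.1 (show |p'.2 - q.2| < 1 / 2 from hp')
      have k6 : p'.2 = p.2 + n := k2
      rw [abs_lt]
      constructor <;> linarith [k4.1, k4.2, k5.1, k5.2]
    obtain rfl : n = 0 := Int.abs_lt_one_iff.1 (by exact_mod_cast k3)
    exact Prod.ext (Subtype.ext k1.symm) (by simpa using k2.symm)
  · exact continuous_fst.prodMk (continuous_snd.add continuous_const)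
  · exact ((H.eq_iff (q.1, q.2) (q.1, q.2 + (l.toAdd : ℤ)) (m q.1) (m q.1)).2 ⟨l.toAdd, rfl⟩).symm
  · obtain ⟨n, hn⟩ := (H.eq_iff _ _ (m p.1) (m p'.1)).1 e
    obtain ⟨k1, k2⟩ := Prod.ext_iff.1 hn
    exact ⟨Multiplicative.ofAdd n, Prod.ext (Subtype.ext k1.symm) k2.symm⟩
  · have k : q.2 + ((l.toAdd : ℤ) : ℝ) = q.2 := congrArg Prod.snd e
    exact toAdd_eq_zero.1 (by simpa using k)

variable {G : Type} [Group G] {X N : Type} [TopologicalSpace X] [TopologicalSpace N]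
  [MulAction G X] {P : X → N} {h : N → ℝ} {T : Set N} {D : Set X} {a b : ℝ} {C : Subgroup G}
  {A A' : Set X} {ψ : (ℝ × ℝ) × ℝ → N} {F : (ℝ × ℝ) × ℝ → X} {s : ℤ → ℤ → G} {γ : G}

theorem LC.keepT [T2Space N] [LocallyConnectedSpace X] [NormalSpace X] (L : LC P ψ F a b s)
    (hs : ∀ m n, s m n = γ ^ n) (W : Wall P h T D a b C) (hX : SC X)
    (S : Sides (fun x => h (P x)) D a b A A')
    (hA : ∀ g : G, ∀ x ∈ A' ∪ D, g • x ∈ A' ∪ D → g ∈ C) (hD : D = F '' slab a b)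
    (eh : ∀ p ∈ slab a b, h (ψ p) = p.2) {c : ℝ} (h1 : a < c) (h2 : c < b)
    {U V : Set N} (hU : SepN h T c U V) {y : X → ℝ}
    (hy : ∀ x ∈ A' ∪ D, ∃ v : X → ℝ, ContinuousAt v x ∧
      ∀ᶠ z in 𝓝 x, ∃ l : ℤ, γ ^ l = 1 ∧ y z = v z + l)
    (hy' : ∀ p ∈ slab c b, ∃ p' ∈ slab c b, F p' = F p ∧ y (F p) = p'.1.2) : KeepT G ψ c b U := by
  classical
  intro N' _ _ j Φ r₀ hr hj hΦ e1 e2 e3
  have hR : 0 < b - r₀ := by linarith
  haveI := Metric.instTietzeExtensionBall.{0, 0, 0} (𝕜 := ℝ) (E := ℂ) hR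
  letI := tubeAct (b - r₀)
  let k : (ℝ × ℝ) × ℝ → ℂ := fun p =>
    ((p.2 - r₀ : ℝ) : ℂ) * Complex.exp (2 * Real.pi * p.1.1 * Complex.I)
  let κ : (ℝ × ℝ) × ℝ → ball (0 : ℂ) (b - r₀) := fun p =>
    if k' : k p ∈ ball (0 : ℂ) (b - r₀) then ⟨k p, k'⟩ else ⟨0, mem_ball_self hR⟩
  have eκ : ∀ p ∈ slab r₀ b, (κ p : ℂ) = k p := fun p hp => by
    have : k p ∈ ball (0 : ℂ) (b - r₀) := by
      have := Complex.norm_exp_ofReal_mul_I (2 * Real.pi * p.1.1)
      push_cast at this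
      rw [mem_ball_zero_iff, norm_mul, this, mul_one, Complex.norm_real,
        Real.norm_of_nonneg (sub_nonneg.2 hp.1.le)]
      exact sub_lt_sub_right hp.2 _
    simp only [κ, dif_pos this]
  have cκ : ContinuousOn κ (slab r₀ b) := by
    rw [IsInducing.subtypeVal.continuousOn_iff]
    exact ContinuousOn.congr (f := k) (by fun_prop) eκ
  have pκ : ∀ p m n, κ (sh p m n) = κ p := fun p m n => by
    have : k (sh p m n) = k p := by
      simp only [k]
      rw [← Complex.exp_periodic.int_mul m (2 * Real.pi * p.1.1 * Complex.I)]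
      congr 2
      push_cast
      ring
    simp only [κ, this]
  have sub : slab c b ⊆ slab a b := fun p hp => ⟨h1.trans hp.1, hp.2⟩
  have sub' : slab c b ⊆ slab r₀ b := fun p hp => ⟨hr.trans hp.1, hp.2⟩
  obtain ⟨w, w1, w2⟩ := L.desc W S hD eh (le_max_left a r₀) (max_lt h1 hr) h2 (f := κ)
    (cκ.mono fun p hp => ⟨(le_max_right _ _).trans_lt hp.1, hp.2⟩) fun p _ m n _ => pκ p m n
  have mU : ∀ p ∈ slab c b, P (F p) ∈ U := fun p hp => by
    refine hU.mU _ (W.mem (hD ▸ mem_image_of_mem F (sub hp))) ?_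
    rw [L.pF p (sub hp), eh p (sub hp)]
    exact hp.1
  have eq : ∀ p ∈ slab c b, Φ (κ p, p.1.2) = j (P (F p)) := fun p hp => by
    rw [eκ p (sub' hp), L.pF p (sub hp)]
    exact e1 p.1.1 p.1.2 p.2 hp.1 hp.2
  refine W.replace' hX S hA h1 h2 hU hj hΦ.quoO (sc_tube hR) (zpowersHom G γ)
    (fun z => (e3 z).imp id fun ⟨p, hp, e⟩ => ⟨(⟨p.1, mem_ball_zero_iff.2 hp⟩, p.2), e⟩)
    (R := slab c b) (F := F) (κ := fun p => (κ p, p.1.2)) (isOpen_slab c b)
    (convex_slab c b).isPreconnected (slab_nonempty h2) (L.cF.mono sub)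
    (fun W' k3 => L.opn W' (k3.trans sub)) ((cκ.mono sub').prodMk (by fun_prop)) mU eq
    (fun z hz => ?_) (fun p hp p' hp' e => ?_)
    (fun l p hp => ⟨sh p 0 l.toAdd, hp, Prod.ext (pκ p _ _) rfl, ?_⟩) (u := fun x => (w x, y x))
    (fun x hx => ?_) fun x hx k1 => ?_
  · obtain ⟨u, hu, e⟩ := hz
    have k3 : c - r₀ < ‖(z.1 : ℂ)‖ := not_le.1 fun k3 => e2 (z.1, z.2) k3 u hu e.symm
    have k4 := mem_ball_zero_iff.1 z.1.2
    have k5 : ((Complex.arg z.1 / (2 * Real.pi), z.2), ‖(z.1 : ℂ)‖ + r₀) ∈ slab c b :=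
      ⟨by dsimp only; linarith, by dsimp only; linarith⟩
    refine ⟨_, k5, Prod.ext (Subtype.ext ((eκ _ (sub' k5)).trans ?_)) rfl⟩
    simp only [k, add_sub_cancel_right]
    convert Complex.norm_mul_exp_arg_mul_I z.1 using 4
    have := Complex.ofReal_ne_zero.2 Real.pi_ne_zero
    push_cast
    field_simp
  · have k3 : j (P (F p)) = j (P (F p')) := by
      rw [← eq p hp, ← eq p' hp']
      exact congrArg (fun z : ball (0 : ℂ) (b - r₀) × ℝ => Φ (z.1, z.2)) e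
    obtain ⟨g, hg⟩ := W.quo.orb _ _ (hj.inj (mU p hp) (mU p' hp') k3)
    obtain ⟨m, n, rfl, rfl⟩ := L.orb W.quo (sub hp) (sub hp') hg
    have k4 : p.1.2 = p.1.2 + (n : ℝ) := congrArg Prod.snd e
    obtain rfl : n = 0 := by simpa using k4
    rw [← hg, hs, zpow_zero, one_smul]
  · rw [L.eF _ _ p (sub hp), hs, zpowersHom_apply]
  · obtain ⟨v, k1, k2⟩ := hy x hx
    refine ⟨fun x => (w x, v x), (w1 x hx).prodMk k1, k2.mono ?_⟩
    rintro z ⟨l, k3, k4⟩
    exact ⟨Multiplicative.ofAdd l, k3, Prod.ext rfl k4⟩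
  · obtain ⟨p, hp, rfl⟩ : x ∈ F '' slab a b := hD ▸ hx
    rw [L.pF p hp, eh p hp] at k1
    obtain ⟨p', k2, k3, k4⟩ := hy' p ⟨k1, hp.2⟩
    exact ⟨p', k2, k3, Prod.ext (by rw [← k3]; exact w2 p' (sub k2) k2.1.le) k4⟩

theorem shift_int {t : (ℝ × ℝ) × ℝ → ℝ} {i j : ℤ}
    (ht : ∀ p ∈ slab a b, t ((p.1.1 + 1, p.1.2), p.2) = t p + i ∧
      t ((p.1.1, p.1.2 + 1), p.2) = t p + j) (m n : ℤ) {p : (ℝ × ℝ) × ℝ} (hp : p ∈ slab a b) :
    t (sh p m n) = t p + (i * m + j * n : ℤ) := by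
  have key : ∀ (u : ℤ → ℝ) (d : ℝ), (∀ k, u (k + 1) = u k + d) → ∀ k, u k = u 0 + d * k :=
    fun u d hu k => by
      induction k using Int.induction_on with
      | zero => simp
      | succ k ih => rw [hu, ih]; push_cast; ring
      | pred k ih =>
        have := hu (-k - 1)
        rw [sub_add_cancel, ih] at this
        push_cast at this ⊢
        linarith
  have k1 := key (fun k => t (sh p k n)) i (fun k => by
    rw [← (ht (sh p k n) hp).1]
    simp [sh, add_assoc]) m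
  have k2 := key (fun k => t (sh p 0 k)) j (fun k => by
    rw [← (ht (sh p 0 k) hp).2]
    simp [sh, add_assoc]) n
  beta_reduce at k1 k2
  rw [k1, k2, sh_zero]
  push_cast
  ring

theorem LC.core (hl : HLGoal) (hG : Pk G) [T2Space N] [CompactSpace N] [ChartedSpace E3 N]
    (L : LC P ψ F a b s) {i j : ℤ} (hij : IsCoprime i j) (hs : ∀ m n, s m n = γ ^ (i * m + j * n))
    (W : Wall P h T D a b (Subgroup.zpowers γ)) (hX : SC X)
    (S : Sides (fun x => h (P x)) D a b A A')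
    (hA : ∀ g : G, ∀ x ∈ A' ∪ D, g • x ∈ A' ∪ D → g ∈ Subgroup.zpowers γ) (hD : D = F '' slab a b)
    (eh : ∀ p ∈ slab a b, h (ψ p) = p.2) : ∃ p q r s : ℤ, p * s - q * r = 1 ∧
      ∀ c U V, a < c → c < b → SepN h T c U V → KeepT G (P216T.reb ψ p q r s) c b U := by
  classical
  obtain ⟨_, _, _, _, _⟩ := W.quo.env hX
  by_cases hγ : γ = 1
  swap
  · obtain ⟨p, q, r, t, k1, k2⟩ := exists_basis hij
    refine ⟨p, q, r, t, k1, fun c U V h1 h2 hU => ?_⟩
    have hD' := hD.trans (image_reb F k1 a b).symm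
    have eh' : ∀ z ∈ slab a b, h (P216T.reb ψ p q r t z) = z.2 := fun z hz => eh (rb p q r t z) hz
    obtain ⟨y, y1, y2⟩ := (L.reb k1).desc W S hD' eh' le_rfl h1 h2 (f := fun z => z.1.2)
      (by fun_prop) fun z _ m n e => by
        rw [hs, k2, ← pow_natAbs_eq_one] at e
        obtain rfl : n = 0 := Int.natAbs_eq_zero.1 (by_contra fun k => hγ (hG.tf _ _ k e))
        simp
    exact (L.reb k1).keepT (fun m n => by rw [hs, k2]) W hX S hA hD' eh' h1 h2 hU (y := y)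
      (fun x hx => ⟨y, y1 x hx, Eventually.of_forall fun z => ⟨0, zpow_zero γ, by simp⟩⟩)
      fun z hz => ⟨z, hz, rfl, y2 z ⟨h1.trans hz.1, hz.2⟩ hz.1.le⟩
  subst hγ
  simp only [one_zpow] at hs
  have ev : ∀ c, a < c → c < b → F '' slab a c = {x | x ∈ D ∧ h (P x) < c} := fun c h1 h2 => by
    ext x
    constructor
    · rintro ⟨p, hp, rfl⟩
      have k : p ∈ slab a b := ⟨hp.1, hp.2.trans h2⟩
      exact ⟨hD ▸ mem_image_of_mem F k, by rw [L.pF p k, eh p k]; exact hp.2⟩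
    · rintro ⟨k1, k2⟩
      obtain ⟨p, hp, rfl⟩ : x ∈ F '' slab a b := hD ▸ k1
      rw [L.pF p hp, eh p hp] at k2
      exact ⟨p, ⟨hp.1, k2⟩, rfl⟩
  obtain ⟨θ, t, i, j, cθ, ct, hij, ht⟩ := hl G N X P hX W.quo F a b A' W.lt
    ⟨L.cF, fun W' k3 k4 => open_of_lift W.quo.loc L.cF L.opn k3 k4, fun p hp p' hp' =>
      ⟨fun e => by
        obtain ⟨m, n, k, -⟩ := L.orb W.quo (g := 1) hp hp' ((one_smul _ _).trans e)
        exact ⟨m, n, k⟩,
      by rintro ⟨m, n, rfl⟩; rw [L.eF m n p hp, hs, one_smul]⟩⟩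
    (S.flip.closed (neg_lt_neg W.lt) W.oD)
    (fun c h1 h2 => ⟨A ∪ {x | x ∈ D ∧ c < h (P x)}, by
      have m : ∀ v, (v, c) ∈ slab a b := fun v => ⟨h1, h2⟩
      have md : ∀ p ∈ slab a b, F p ∈ D := fun p hp => hD ▸ mem_image_of_mem F hp
      have hv : ∀ v, h (P (F (v, c))) = c := fun v => by rw [L.pF _ (m v), eh _ (m v)]
      refine ⟨S.oA c h1 h2, ev c h1 h2 ▸ S.oA' c h1 h2, ev c h1 h2 ▸ disjoint_left.2 ?_, fun x => ?_,
        fun v k => ?_, fun v k => ?_, fun p hp => ?_, fun p hp => .inr (mem_image_of_mem F hp)⟩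
      · rintro x (k | k) (k' | k')
        exacts [S.d₁ x k k', S.d₂ x k k'.1, S.d₃ x k' k.1, lt_asymm k.2 k'.2]
      · rw [ev c h1 h2]
        rcases S.cov x with k | k | k
        · exact .inl (.inl k)
        · exact .inr (.inl (.inl k))
        · rcases lt_trichotomy (h (P x)) c with e | e | e
          · exact .inr (.inl (.inr ⟨k, e⟩))
          · obtain ⟨p, hp, rfl⟩ : x ∈ F '' slab a b := hD ▸ k
            rw [L.pF p hp, eh p hp] at e
            exact .inr (.inr ⟨p.1, by rw [← e]⟩)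
          · exact .inl (.inr ⟨k, e⟩)
      · exact k.elim (fun k => S.d₂ _ k (md _ (m v))) fun k => k.2.ne' (hv v)
      · rw [ev c h1 h2] at k
        exact k.elim (fun k => S.d₃ _ k (md _ (m v))) fun k => k.2.ne (hv v)
      · have k : p ∈ slab a b := ⟨h1.trans hp.1, hp.2⟩
        exact .inr ⟨md p k, by rw [L.pF p k, eh p k]; exact hp.1⟩⟩)
    (fun g x k1 k2 => by
      have := hA g x (hD ▸ k1) (hD ▸ k2)
      rwa [Subgroup.zpowers_one_eq_bot, Subgroup.mem_bot] at this)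
  obtain ⟨p, q, r, s', k1, k2⟩ := exists_basis hij
  refine ⟨p, q, r, s', k1, fun c U V h1 h2 hU => ?_⟩
  have hD' := hD.trans (image_reb F k1 a b).symm
  have eh' : ∀ z ∈ slab a b, h (P216T.reb ψ p q r s' z) = z.2 := fun z hz => eh (rb p q r s' z) hz
  obtain ⟨δ, δ1, δ2⟩ := (L.reb k1).desc W S hD' eh' le_rfl h1 h2
    (f := fun z => t (rb p q r s' z) - z.1.2)
    ((ct.comp (f := rb p q r s') (by fun_prop) fun _ k => k).sub (by fun_prop)) fun z hz m n _ => by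
      beta_reduce
      rw [rb_sh, shift_int (fun p hp => (ht p hp).2) _ _ (p := rb p q r s' z) hz, k2]
      simp
  let θ' : X → AddCircle (1 : ℝ) := fun x => θ x - (δ x : ℝ)
  let y : X → ℝ := fun x => if k : ∃ z ∈ slab c b, P216T.reb F p q r s' z = x then k.choose.1.2
    else (QuotientAddGroup.mk_surjective (θ' x)).choose
  have ey : ∀ x, (y x : AddCircle (1 : ℝ)) = θ' x := fun x => by
    by_cases k : ∃ z ∈ slab c b, P216T.reb F p q r s' z = x
    · obtain ⟨k3, k4⟩ := k.choose_spec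
      have k5 : k.choose ∈ slab a b := ⟨h1.trans k3.1, k3.2⟩
      simp only [y, dif_pos k, θ']
      conv_rhs => rw [← k4, δ2 _ k5 k3.1.le]
      rw [show θ (P216T.reb F p q r s' k.choose) = _ from (ht (rb p q r s' k.choose) k5).1,
        ← AddCircle.coe_sub, sub_sub_cancel]
    · simp only [y, dif_neg k]
      exact (QuotientAddGroup.mk_surjective (θ' x)).choose_spec
  have hp := AddCircle.isCoveringMap_coe (1 : ℝ)
  refine (L.reb k1).keepT (γ := 1) (fun m n => by rw [hs, one_zpow]) W hX S hA hD' eh' h1 h2 hU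
    (y := y) (fun x hx => ?_) fun z hz => ?_
  · have c1 : ContinuousAt θ' x := (cθ.continuousAt
      ((hD ▸ S.flip.open_union (neg_lt_neg W.lt) W.oD).mem_nhds (hD ▸ hx))).sub
      (hp.continuous.continuousAt.comp (δ1 x hx))
    obtain ⟨e, k3, k4⟩ := hp.isLocalHomeomorph (y x)
    have k5 : θ' x ∈ e.target := by
      rw [← ey, congrFun k4]
      exact e.map_source k3
    refine ⟨fun z => e.symm (θ' z), (e.continuousAt_symm k5).comp c1, ?_⟩
    filter_upwards [c1 (e.open_target.mem_nhds k5)] with z hz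
    obtain ⟨l, hl⟩ := (AddCircle.coe_eq_zero_iff (1 : ℝ) (x := y z - e.symm (θ' z))).1 (by
      rw [AddCircle.coe_sub, ey, congrFun k4, e.right_inv hz, sub_self])
    exact ⟨l, one_zpow l, by rw [zsmul_eq_mul, mul_one] at hl; linarith⟩
  · have k : ∃ z' ∈ slab c b, P216T.reb F p q r s' z' = P216T.reb F p q r s' z := ⟨z, hz, rfl⟩
    exact ⟨_, k.choose_spec.1, k.choose_spec.2, dif_pos k⟩

/-- **TOR** -/
theorem tor (hl : HLGoal) : TorGoal := by
  intro G _ hG N _ _ _ _ ⟨X, _, _, P, hX, q⟩ ψ a b H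
  by_cases hab : a < b
  swap
  · exact ⟨fun c h1 h2 => absurd (h1.trans h2) hab, 1, 0, 0, 1, by simp,
      .inl fun c _ _ h1 h2 => absurd (h1.trans h2) hab⟩
  obtain ⟨_, _, _, _, _⟩ := q.env hX
  obtain ⟨F, s, L⟩ := H.exists_lc q hab
  obtain ⟨γ, i, j, hij, hs⟩ := L.slope q hab hG
  obtain ⟨h, eh, W⟩ := L.wall (C := Subgroup.zpowers γ) q hab fun g => by
    constructor
    · rintro ⟨n, rfl⟩
      obtain ⟨p, q, r, t, -, k⟩ := exists_basis hij
      exact ⟨_, _, by rw [hs, k 0 n]⟩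
    · rintro ⟨m, n, rfl⟩
      exact ⟨_, (hs m n).symm⟩
  obtain ⟨A, A', S⟩ := W.exists_sides hX
  have conv : ∀ c U V, a < c → c < b → (SepT ψ a c b U V ↔ SepN h (ψ '' slab a b) c U V) := by
    intro c U V h1 h2
    have m : ∀ v, (v, c) ∈ slab a b := fun v => ⟨h1, h2⟩
    constructor
    · intro s
      refine ⟨s.oU, s.oV, s.disj, fun y => (s.cov y).imp id (Or.imp id ?_), ?_, ?_, ?_, ?_⟩
      · rintro ⟨v, rfl⟩
        exact ⟨⟨_, m v, rfl⟩, eh _ (m v)⟩
      all_goals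
        rintro _ ⟨x, hx, rfl⟩ e
        rw [eh x hx] at e
      exacts [by subst e; exact s.sU x.1, by subst e; exact s.sV x.1, s.mU ⟨e, hx.2⟩,
        s.mV ⟨hx.1, e⟩]
    · intro s
      refine ⟨s.oU, s.oV, s.disj, fun y => (s.cov y).imp id (Or.imp id ?_),
        fun v => s.sU _ ⟨_, m v, rfl⟩ (eh _ (m v)), fun v => s.sV _ ⟨_, m v, rfl⟩ (eh _ (m v)),
        fun x hx => ?_, fun x hx => ?_⟩
      · rintro ⟨⟨x, hx, rfl⟩, e⟩
        exact ⟨x.1, by rw [← e, eh x hx]⟩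
      · have k : x ∈ slab a b := ⟨h1.trans hx.1, hx.2⟩
        exact s.mU _ ⟨x, k, rfl⟩ (by rw [eh x k]; exact hx.1)
      · have k : x ∈ slab a b := ⟨hx.1, hx.2.trans h2⟩
        exact s.mV _ ⟨x, k, rfl⟩ (by rw [eh x k]; exact hx.2)
  rcases W.dich hG S with hA | hA
  · obtain ⟨p, q, r, t, k1, k2⟩ := L.core hl hG hij hs W hX S hA rfl eh
    exact ⟨fun c h1 h2 => ⟨_, _, (conv c _ _ h1 h2).2 (W.sepN S hA h1 h2)⟩, p, q, r, t, k1,
      .inl fun c U V h1 h2 s => k2 c U V h1 h2 ((conv c U V h1 h2).1 s)⟩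
  · obtain ⟨p, q, r, t, k1, k2⟩ := L.flipT.core hl hG hij hs W.flip hX S.flip hA
      (image_flipT F a b).symm fun p hp => neg_eq_iff_eq_neg.2 (eh _ (flip_mem hp))
    refine ⟨fun c h1 h2 => ?_, p, q, r, t, k1, .inr fun c U V h1 h2 s =>
      k2 (-c) V U (neg_lt_neg h2) (neg_lt_neg h1) ((conv c U V h1 h2).1 s).flip⟩
    have := (W.flip.sepN S.flip hA (neg_lt_neg h2) (neg_lt_neg h1)).flip
    simp only [neg_neg] at this
    exact ⟨_, _, (conv c _ _ h1 h2).2 this⟩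

end Vale.Agent.P216T
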