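import Vale.Agent.P216T.Mod

/-!
# P216T: lifted torus collars
-/

set_option linter.all false

open Set Topology Filter Metric

noncomputable section

namespace Vale.Agent.P216T

/-- translation by a lattice vector -/
abbrev sh (z : (ℝ × ℝ) × ℝ) (m n : ℤ) : (ℝ × ℝ) × ℝ := ((z.1.1 + m, z.1.2 + n), z.2)

/-- the linear map of `reb` -/
abbrev rb (p q r s : ℤ) (z : (ℝ × ℝ) × ℝ) : (ℝ × ℝ) × ℝ :=
  ((p * z.1.1 + r * z.1.2, q * z.1.1 + s * z.1.2), z.2)

theorem isOpen_slab (a b : ℝ) : IsOpen (slab a b) := isOpen_Ioo.preimage continuous_snd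

theorem convex_slab (a b : ℝ) : Convex ℝ (slab a b) :=
  (convex_Ioo a b).linear_preimage (LinearMap.snd ℝ (ℝ × ℝ) ℝ)

theorem slab_nonempty {a b : ℝ} (h : a < b) : (slab a b).Nonempty :=
  let ⟨c, hc⟩ := exists_between h
  ⟨(0, c), hc⟩

theorem sh_sh (z : (ℝ × ℝ) × ℝ) (m n m' n' : ℤ) : sh (sh z m' n') m n = sh z (m + m') (n + n') := by
  ext <;> simp <;> ring

theorem sh_zero (z : (ℝ × ℝ) × ℝ) : sh z 0 0 = z := by simp [sh]

theorem rb_sh (p q r s m n : ℤ) (z : (ℝ × ℝ) × ℝ) :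
    rb p q r s (sh z m n) = sh (rb p q r s z) (p * m + r * n) (q * m + s * n) := by
  ext <;> simp <;> ring

theorem rb_rb {p q r s : ℤ} (h : p * s - q * r = 1) (z : (ℝ × ℝ) × ℝ) :
    rb p q r s (rb s (-q) (-r) p z) = z := by
  have h' : (p : ℝ) * s - q * r = 1 := by exact_mod_cast h
  ext <;> simp
  · linear_combination z.1.1 * h'
  · linear_combination z.1.2 * h'

theorem rb_rb' {p q r s : ℤ} (h : p * s - q * r = 1) (z : (ℝ × ℝ) × ℝ) :
    rb s (-q) (-r) p (rb p q r s z) = z := by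
  have h' : (p : ℝ) * s - q * r = 1 := by exact_mod_cast h
  ext <;> simp
  · linear_combination z.1.1 * h'
  · linear_combination z.1.2 * h'

theorem image_reb {N : Type} (ψ : (ℝ × ℝ) × ℝ → N) {p q r s : ℤ} (h : p * s - q * r = 1)
    (a b : ℝ) : reb ψ p q r s '' slab a b = ψ '' slab a b := by
  ext y
  constructor
  · rintro ⟨z, hz, rfl⟩
    exact ⟨rb p q r s z, hz, rfl⟩
  · rintro ⟨z, hz, rfl⟩
    exact ⟨rb s (-q) (-r) p z, hz, congrArg ψ (rb_rb h z)⟩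

theorem flip_mem {a b : ℝ} {z : (ℝ × ℝ) × ℝ} (hz : z ∈ slab (-b) (-a)) :
    (z.1, -z.2) ∈ slab a b := ⟨lt_neg.1 hz.2, neg_lt.1 hz.1⟩

theorem image_flipT {N : Type} (ψ : (ℝ × ℝ) × ℝ → N) (a b : ℝ) :
    flipT ψ '' slab (-b) (-a) = ψ '' slab a b := by
  ext y
  constructor
  · rintro ⟨z, hz, rfl⟩
    exact ⟨_, flip_mem hz, rfl⟩
  · rintro ⟨z, hz, rfl⟩
    exact ⟨(z.1, -z.2), ⟨neg_lt_neg hz.2, neg_lt_neg hz.1⟩, by simp [flipT]⟩

theorem exists_basis {i j : ℤ} (h : IsCoprime i j) : ∃ p q r s : ℤ, p * s - q * r = 1 ∧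
    ∀ m n, i * (p * m + r * n) + j * (q * m + s * n) = n := by
  obtain ⟨r, s, e⟩ := h
  exact ⟨j, -i, r, s, by linear_combination e, fun m n => by linear_combination n * e⟩

variable {G : Type} [Group G] {X N : Type} [TopologicalSpace X] [TopologicalSpace N]
  [MulAction G X] {P : X → N} {h : N → ℝ} {T : Set N} {D : Set X} {a b : ℝ} {C : Subgroup G}
  {A A' : Set X} {ψ : (ℝ × ℝ) × ℝ → N} {F : (ℝ × ℝ) × ℝ → X} {s : ℤ → ℤ → G}

theorem Collar.reb (H : Collar ψ a b) {p q r s : ℤ} (h : p * s - q * r = 1) :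
    Collar (reb ψ p q r s) a b where
  cont := H.cont.comp (f := rb p q r s) (by fun_prop) fun _ k => k
  img W h1 h2 := by
    have : P216T.reb ψ p q r s '' W = ψ '' (rb s (-q) (-r) p ⁻¹' W) := by
      ext y
      constructor
      · rintro ⟨z, hz, rfl⟩
        exact ⟨rb p q r s z, by rwa [mem_preimage, rb_rb' h], rfl⟩
      · rintro ⟨z, hz, rfl⟩
        exact ⟨_, hz, congrArg ψ (rb_rb h z)⟩
    rw [this]
    exact H.img _ (fun z hz => (h1 (a := rb s (-q) (-r) p z) hz :)) (h2.preimage (by fun_prop))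
  eq_iff z hz z' hz' := by
    refine (H.eq_iff (rb p q r s z) hz (rb p q r s z') hz').trans ⟨?_, ?_⟩
    · rintro ⟨m, n, e⟩
      have := congrArg (rb s (-q) (-r) p) e
      rw [rb_rb' h, rb_sh, rb_rb' h] at this
      exact ⟨_, _, this⟩
    · rintro ⟨m, n, rfl⟩
      exact ⟨_, _, rb_sh p q r s m n z⟩

theorem Collar.flipT (H : Collar ψ a b) : Collar (flipT ψ) (-b) (-a) where
  cont := H.cont.comp (f := fun z : (ℝ × ℝ) × ℝ => (z.1, -z.2)) (by fun_prop) fun _ k => flip_mem k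
  img W h1 h2 := by
    have : P216T.flipT ψ '' W = ψ '' ((fun z : (ℝ × ℝ) × ℝ => (z.1, -z.2)) ⁻¹' W) := by
      ext y
      constructor
      · rintro ⟨z, hz, rfl⟩
        exact ⟨(z.1, -z.2), by simpa using hz, rfl⟩
      · rintro ⟨z, hz, rfl⟩
        exact ⟨_, hz, by simp [P216T.flipT]⟩
    rw [this]
    exact H.img _ (fun z hz => by simpa using flip_mem (h1 hz)) (h2.preimage (by fun_prop))
  eq_iff z hz z' hz' := by
    refine (H.eq_iff _ (flip_mem hz) _ (flip_mem hz')).trans (exists₂_congr fun m n => ?_)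
    simp only [Prod.ext_iff, neg_inj]

/-- a lift of a collar -/
structure LC (P : X → N) (ψ : (ℝ × ℝ) × ℝ → N) (F : (ℝ × ℝ) × ℝ → X) (a b : ℝ)
    (s : ℤ → ℤ → G) : Prop where
  col : Collar ψ a b
  cF : ContinuousOn F (slab a b)
  pF : ∀ p ∈ slab a b, P (F p) = ψ p
  eF : ∀ m n, ∀ p ∈ slab a b, F (sh p m n) = s m n • F p

theorem Collar.exists_lc (H : Collar ψ a b) (q : Quo G P) (hab : a < b) :
    ∃ (F : (ℝ × ℝ) × ℝ → X) (s : ℤ → ℤ → G), LC P ψ F a b s := by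
  obtain ⟨p₀, hp₀⟩ := slab_nonempty hab
  obtain ⟨x₀, hx₀⟩ := q.surj (ψ p₀)
  obtain ⟨F, cF, pF, -⟩ := lift_convex q.cov (convex_slab a b) H.cont hp₀ hx₀
  have e : ∀ m n, ∀ p ∈ slab a b, P (F p) = P (F (sh p m n)) := fun m n p hp => by
    rw [pF p hp, pF (sh p m n) hp]
    exact (H.eq_iff p hp (sh p m n) hp).2 ⟨m, n, rfl⟩
  choose s hs using fun m n => q.orb _ _ (e m n p₀ hp₀)
  refine ⟨F, s, H, cF, pF, fun m n => ?_⟩
  exact q.cov.eqOn_of_comp_eqOn (convex_slab a b).isPreconnected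
    (cF.comp (f := fun p => sh p m n) (by fun_prop) fun _ k => k)
    ((q.cont (s m n)).comp_continuousOn cF)
    (fun p hp => ((q.inv _ _).trans (e m n p hp)).symm) hp₀ (hs m n).symm

namespace LC

theorem reb (L : LC P ψ F a b s) {p q r t : ℤ} (h : p * t - q * r = 1) :
    LC P (reb ψ p q r t) (reb F p q r t) a b fun m n => s (p * m + r * n) (q * m + t * n) where
  col := L.col.reb h
  cF := L.cF.comp (f := rb p q r t) (by fun_prop) fun _ k => k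
  pF z hz := L.pF (rb p q r t z) hz
  eF m n z hz := (congrArg F (rb_sh p q r t m n z)).trans (L.eF _ _ (rb p q r t z) hz)

theorem flipT (L : LC P ψ F a b s) : LC P (flipT ψ) (flipT F) (-b) (-a) s where
  col := L.col.flipT
  cF := L.cF.comp (f := fun z : (ℝ × ℝ) × ℝ => (z.1, -z.2)) (by fun_prop) fun _ k => flip_mem k
  pF z hz := L.pF _ (flip_mem hz)
  eF m n z hz := L.eF m n _ (flip_mem hz)

theorem opn (L : LC P ψ F a b s) (W : Set ((ℝ × ℝ) × ℝ)) (h1 : W ⊆ slab a b) (h2 : IsOpen W) :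
    IsOpen ((fun p => P (F p)) '' W) := by
  rw [image_congr (g := ψ) fun x hx => L.pF x (h1 hx)]
  exact L.col.img W h1 h2

theorem orb (L : LC P ψ F a b s) (q : Quo G P) {g : G} {p p' : (ℝ × ℝ) × ℝ} (hp : p ∈ slab a b)
    (hp' : p' ∈ slab a b) (e : g • F p = F p') : ∃ m n, p' = sh p m n ∧ s m n = g := by
  obtain ⟨m, n, rfl⟩ := (L.col.eq_iff p hp p' hp').1
    (by rw [← L.pF p hp, ← L.pF p' hp', ← e, q.inv])
  exact ⟨m, n, rfl, q.cancel ((L.eF m n p hp).symm.trans e.symm)⟩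

theorem slope (L : LC P ψ F a b s) (q : Quo G P) (hab : a < b) (hG : Pk G) :
    ∃ (γ : G) (i j : ℤ), IsCoprime i j ∧ ∀ m n, s m n = γ ^ (i * m + j * n) := by
  obtain ⟨p, hp⟩ := slab_nonempty hab
  let φ : Multiplicative (ℤ × ℤ) →* G := MonoidHom.mk' (fun v => s v.toAdd.1 v.toAdd.2)
    fun v w => q.cancel (x := F p) (by
      rw [mul_smul, ← L.eF _ _ p hp, ← L.eF _ _ p hp, ← L.eF _ _ (sh p _ _) hp, sh_sh]
      rfl)
  have e : ∀ m n, s m n = s 1 0 ^ m * s 0 1 ^ n := fun m n => by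
    have : Multiplicative.ofAdd (m, n) =
        Multiplicative.ofAdd ((1 : ℤ), (0 : ℤ)) ^ m * Multiplicative.ofAdd (0, 1) ^ n := by
      rw [← ofAdd_zsmul, ← ofAdd_zsmul, ← ofAdd_add]
      simp
    exact (congrArg φ this).trans (by rw [map_mul, map_zpow, map_zpow]; rfl)
  have c : Commute (s 1 0) (s 0 1) :=
    (Commute.all (Multiplicative.ofAdd ((1 : ℤ), (0 : ℤ))) (Multiplicative.ofAdd (0, 1))).map φ
  obtain ⟨z, ⟨i, hi⟩, j, hj⟩ : ∃ z : G, s 1 0 ∈ Subgroup.zpowers z ∧ s 0 1 ∈ Subgroup.zpowers z := by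
    by_cases k : s 1 0 = 1
    · exact ⟨s 0 1, k ▸ one_mem _, Subgroup.mem_zpowers _⟩
    · obtain ⟨z, hz⟩ := hG.cen _ k
      exact ⟨z, hz _ (Commute.refl _), hz _ c⟩
  obtain ⟨d, i', j', k, rfl, rfl⟩ : ∃ d i' j', IsCoprime i' j' ∧ i = i' * d ∧ j = j' * d := by
    rcases (Int.gcd i j).eq_zero_or_pos with k | k
    · rw [Int.gcd_eq_zero_iff] at k
      exact ⟨0, 1, 0, isCoprime_one_left, by simp [k.1], by simp [k.2]⟩
    · obtain ⟨i', j', k1, k2⟩ := Int.exists_gcd_one k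
      exact ⟨_, i', j', Int.isCoprime_iff_gcd_eq_one.2 k1, k2⟩
  refine ⟨z ^ d, i', j', k, fun m n => ?_⟩
  rw [e, ← hi, ← hj]
  simp only [← zpow_mul, ← zpow_add]
  congr 1
  ring

theorem wall (L : LC P ψ F a b s) (q : Quo G P) (hab : a < b) (hC : ∀ g, g ∈ C ↔ ∃ m n, s m n = g) :
    ∃ h : N → ℝ, (∀ p ∈ slab a b, h (ψ p) = p.2) ∧ Wall P h (ψ '' slab a b) (F '' slab a b) a b C := by
  have fr : ∀ x : ℝ, x + ((-⌊x⌋ : ℤ) : ℝ) ∈ Icc (0 : ℝ) 1 := fun x => by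
    rw [Int.cast_neg, ← sub_eq_add_neg, Int.self_sub_floor]
    exact ⟨Int.fract_nonneg _, (Int.fract_lt_one _).le⟩
  obtain ⟨h, eh, W⟩ := wall_of_model q (C := C) (η := fun p : (ℝ × ℝ) × ℝ => p.2) hab
    (isOpen_slab a b) (convex_slab a b).isPreconnected continuousOn_snd L.cF L.opn
    (fun p hp p' hp' e => by
      obtain ⟨g, hg⟩ := q.orb _ _ e
      obtain ⟨m, n, rfl, -⟩ := L.orb q hp hp' hg
      rfl)
    (fun c c' h1 h2 => ⟨(Icc 0 1 ×ˢ Icc 0 1) ×ˢ Icc c c',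
      fun p hp => ⟨h1.trans_le hp.2.1, hp.2.2.trans_lt h2⟩,
      (isCompact_Icc.prod isCompact_Icc).prod isCompact_Icc, fun p hp => hp.2,
      fun p hp k1 k2 => ⟨sh p (-⌊p.1.1⌋) (-⌊p.1.2⌋), ⟨⟨fr _, fr _⟩, k1, k2⟩,
        by rw [L.eF _ _ p hp, q.inv]⟩⟩)
    (fun c h1 h2 => ⟨(0, c), ⟨h1, h2⟩, rfl⟩)
    (fun g hg p hp => by
      obtain ⟨m, n, rfl⟩ := (hC g).1 hg
      exact ⟨sh p m n, hp, L.eF m n p hp⟩)
    (fun g p hp p' hp' e => by
      obtain ⟨m, n, -, k⟩ := L.orb q hp hp' e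
      exact (hC g).2 ⟨m, n, k⟩)
  rw [image_congr L.pF] at W
  exact ⟨h, fun p hp => by rw [← L.pF p hp, eh p hp], W⟩

/-- descent and extension over the lower side -/
theorem desc [T2Space N] [NormalSpace X] (L : LC P ψ F a b s) (W : Wall P h T D a b C)
    (S : Sides (fun x => h (P x)) D a b A A') (hD : D = F '' slab a b)
    (eh : ∀ p ∈ slab a b, h (ψ p) = p.2) {c c' : ℝ} (h0 : a ≤ c') (h1 : c' < c) (h2 : c < b)
    {Z : Type} [TopologicalSpace Z] [TietzeExtension.{0, 0} Z] {f : (ℝ × ℝ) × ℝ → Z}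
    (hf : ContinuousOn f (slab c' b))
    (inv : ∀ p ∈ slab a b, ∀ m n, s m n = 1 → f (sh p m n) = f p) :
    ∃ u : X → Z, (∀ x ∈ A' ∪ D, ContinuousAt u x) ∧ ∀ p ∈ slab a b, c ≤ p.2 → u (F p) = f p := by
  haveI : Nonempty ((ℝ × ℝ) × ℝ) := inferInstance
  have sub : slab c' b ⊆ slab a b := fun p hp => ⟨h0.trans_lt hp.1, hp.2⟩
  have e : ∀ p ∈ slab a b, f (Function.invFunOn F (slab a b) (F p)) = f p := fun p hp => by
    obtain ⟨m, n, k1, k2⟩ := L.orb W.quo (g := 1) hp (Function.invFunOn_mem ⟨p, hp, rfl⟩)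
      ((one_smul _ _).trans (Function.invFunOn_eq ⟨p, hp, rfl⟩).symm)
    rw [k1, inv p hp m n k2]
  obtain ⟨u, u1, u2⟩ := W.ext S (h0.trans_lt h1) h2
    (f := fun x => f (Function.invFunOn F (slab a b) x))
    (ContinuousOn.mono (desc_cont (isOpen_slab c' b)
      (fun W' k3 k4 => open_of_lift W.quo.loc L.cF L.opn (k3.trans sub) k4)
      (hf.congr fun p hp => e p (sub hp))) (by
        rintro x ⟨k1, k2⟩
        obtain ⟨p, hp, rfl⟩ : x ∈ F '' slab a b := hD ▸ k1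
        rw [L.pF p hp, eh p hp] at k2
        exact ⟨p, ⟨h1.trans_le k2, hp.2⟩, rfl⟩))
  refine ⟨u, u1, fun p hp k => ?_⟩
  rw [u2 _ (hD ▸ mem_image_of_mem F hp) (by rwa [L.pF p hp, eh p hp]), e p hp]

end LC

end Vale.Agent.P216T
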